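import Mathlib

open Finset

namespace Vale.Agent.P338.H373

/-- modulus `2^b+1` with `b = 2^β` -/
def md (β : ℕ) : ℕ := 2 ^ (2 ^ β) + 1

/-- power of two with exponent reduced modulo `2 b = 2^(β+1)` -/
def pw (β : ℕ) (e : ℤ) : ℕ := 2 ^ ((e % (2 ^ (β + 1) : ℕ)).toNat)

theorem two_pow_b (β : ℕ) : (2 : ZMod (md β)) ^ (2 ^ β) = -1 := by
  have h : ((2 ^ (2 ^ β) + 1 : ℕ) : ZMod (md β)) = 0 := ZMod.natCast_self (md β)
  push_cast at h
  exact eq_neg_of_add_eq_zero_left h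

theorem two_pow_2b (β : ℕ) : (2 : ZMod (md β)) ^ (2 ^ (β + 1)) = 1 := by
  rw [pow_succ, pow_mul, two_pow_b]; norm_num

/-- `2` as a unit -/
def two (β : ℕ) : (ZMod (md β))ˣ where
  val := 2
  inv := 2 ^ (2 ^ (β + 1) - 1)
  val_inv := by
    rw [← pow_succ', Nat.sub_add_cancel (Nat.one_le_two_pow), two_pow_2b]
  inv_val := by
    rw [← pow_succ, Nat.sub_add_cancel (Nat.one_le_two_pow), two_pow_2b]

@[simp] theorem two_val (β : ℕ) : ((two β : (ZMod (md β))ˣ) : ZMod (md β)) = 2 := rfl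

theorem two_order (β : ℕ) : (two β) ^ (2 ^ (β + 1)) = 1 := by
  apply Units.ext
  simp [two_pow_2b]

theorem two_half (β : ℕ) : (((two β) ^ (2 ^ β) : (ZMod (md β))ˣ) : ZMod (md β)) = -1 := by
  simp [two_pow_b]

theorem pw_cast (β : ℕ) (e : ℤ) : (pw β e : ZMod (md β)) = ((two β ^ e : (ZMod (md β))ˣ) : ZMod (md β)) := by
  unfold pw
  have hpos : (0:ℤ) < ((2 ^ (β + 1) : ℕ) : ℤ) := by positivity
  have h0 : 0 ≤ e % ((2 ^ (β + 1) : ℕ) : ℤ) := Int.emod_nonneg _ hpos.ne'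
  obtain ⟨n, hn⟩ := Int.eq_ofNat_of_zero_le h0
  have h1 : e = (n : ℤ) + ((2 ^ (β + 1) : ℕ) : ℤ) * (e / ((2 ^ (β + 1) : ℕ) : ℤ)) := by
    have := Int.emod_add_mul_ediv e ((2 ^ (β + 1) : ℕ) : ℤ)
    rw [hn] at this
    simpa using this.symm
  have h2 : two β ^ e = two β ^ n := by
    conv_lhs => rw [h1]
    rw [zpow_add, zpow_mul, zpow_natCast, zpow_natCast, two_order, one_zpow, mul_one]
  rw [h2, hn]
  simp

theorem pw_lt (β : ℕ) (e : ℤ) : 2 * pw β e ≤ 2 ^ (2 ^ (β + 1)) := by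
  unfold pw
  have hpos : (0:ℤ) < ((2 ^ (β + 1) : ℕ) : ℤ) := by positivity
  have h0 : 0 ≤ e % ((2 ^ (β + 1) : ℕ) : ℤ) := Int.emod_nonneg _ hpos.ne'
  have h1 : e % ((2 ^ (β + 1) : ℕ) : ℤ) < ((2 ^ (β + 1) : ℕ) : ℤ) := Int.emod_lt_of_pos _ hpos
  have h2 : (e % ((2 ^ (β + 1) : ℕ) : ℤ)).toNat < 2 ^ (β + 1) := by omega
  calc 2 * 2 ^ ((e % ((2 ^ (β + 1) : ℕ) : ℤ)).toNat) = 2 ^ ((e % ((2 ^ (β + 1) : ℕ) : ℤ)).toNat + 1) := by ring
    _ ≤ _ := Nat.pow_le_pow_right (by norm_num) h2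

/-- sum of a geometric progression of length `2^n` as a product -/
theorem geom_two_pow {R : Type*} [CommRing R] (y : R) (n : ℕ) :
    ∑ k ∈ range (2 ^ n), y ^ k = ∏ r ∈ range n, (1 + y ^ (2 ^ r)) := by
  induction n with
  | zero => simp
  | succ n ih =>
    rw [prod_range_succ, ← ih, pow_succ, mul_two, sum_range_add, mul_add, mul_one]
    congr 1
    rw [sum_mul]
    exact sum_congr rfl fun k _ => by rw [← pow_add, add_comm]

/-- orthogonality -/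
theorem sum_root (β : ℕ) (e : ℤ) (he : ¬ ((2 ^ (β + 1) : ℕ) : ℤ) ∣ e) :
    ∑ k ∈ range (2 ^ (β + 1)), (((two β ^ e) ^ k : (ZMod (md β))ˣ) : ZMod (md β)) = 0 := by
  have h1 : ∀ k : ℕ, (((two β ^ e) ^ k : (ZMod (md β))ˣ) : ZMod (md β))
      = ((two β ^ e : (ZMod (md β))ˣ) : ZMod (md β)) ^ k := fun k => by simp
  simp only [h1]
  rw [geom_two_pow]
  -- find r
  have he0 : e ≠ 0 := by rintro rfl; exact he (dvd_zero _)
  obtain ⟨v, o, ho, hv⟩ : ∃ (v : ℕ) (o : ℤ), ¬ (2:ℤ) ∣ o ∧ e = 2 ^ v * o := by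
    have hf : FiniteMultiplicity (2:ℤ) e := Int.finiteMultiplicity_iff.2 ⟨by norm_num, he0⟩
    obtain ⟨o, h1, h2⟩ := hf.exists_eq_pow_mul_and_not_dvd
    exact ⟨_, o, h2, h1⟩
  have hvβ : v ≤ β := by
    by_contra hcon
    push Not at hcon
    apply he
    rw [hv]
    apply Dvd.dvd.mul_right
    push_cast
    exact pow_dvd_pow _ hcon
  have hodd : ∃ q : ℤ, o = 2 * q + 1 := by
    have : Odd o := by
      rw [← Int.not_even_iff_odd, even_iff_two_dvd]; exact ho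
    exact this
  obtain ⟨q, hq⟩ := hodd
  apply prod_eq_zero (i := β - v) (mem_range.2 (by omega))
  have h2 : e * ((2 ^ (β - v) : ℕ) : ℤ) = ((2 ^ β : ℕ) : ℤ) + ((2 ^ (β + 1) : ℕ) : ℤ) * q := by
    rw [hv, hq]
    push_cast
    have : (2:ℤ) ^ v * 2 ^ (β - v) = 2 ^ β := by
      rw [← pow_add]; congr 1; omega
    calc (2:ℤ) ^ v * (2 * q + 1) * 2 ^ (β - v) = (2 ^ v * 2 ^ (β - v)) * (2 * q + 1) := by ring
      _ = _ := by rw [this]; ring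
  have h3 : (two β ^ e) ^ (2 ^ (β - v)) = two β ^ (2 ^ β) := by
    rw [← zpow_natCast, ← zpow_mul, h2, zpow_add, zpow_mul, zpow_natCast, zpow_natCast, two_order,
      one_zpow, mul_one]
  have h4 : ((two β ^ e : (ZMod (md β))ˣ) : ZMod (md β)) ^ (2 ^ (β - v)) = -1 := by
    rw [← two_half, ← h3]; simp
  rw [h4]; ring

theorem sum_root_dvd (β : ℕ) (e : ℤ) (he : ((2 ^ (β + 1) : ℕ) : ℤ) ∣ e) :
    ∑ k ∈ range (2 ^ (β + 1)), (((two β ^ e) ^ k : (ZMod (md β))ˣ) : ZMod (md β)) = 2 ^ (β + 1) := by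
  obtain ⟨q, rfl⟩ := he
  rw [zpow_mul, zpow_natCast, two_order, one_zpow]
  simp

/-- kernel -/
def hh (β : ℕ) (m : ℕ) : ℕ := pw β ((m + 1).choose 2 : ℕ)

/-- data after the first twiddle -/
def u1 (β : ℕ) (x : ℕ → ℕ → ℕ) (i s : ℕ) : ℕ := pw β (-((i.choose 2 : ℕ) : ℤ)) * x i s

/-- first convolution (rows `0..K1-1`, kernel row `K + k - i`) -/
def c1 (β K1 : ℕ) (x : ℕ → ℕ → ℕ) (k s : ℕ) : ℕ :=
  ∑ i ∈ range K1, hh β (2 ^ (β + 1) + k - i) * u1 β x i s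

/-- data after the second twiddle -/
def u2 (β K1 : ℕ) (x : ℕ → ℕ → ℕ) (k s : ℕ) : ℕ :=
  pw β ((k : ℤ) * ((s : ℤ) - k)) * c1 β K1 x k s

/-- second convolution -/
def c2 (β K1 : ℕ) (x : ℕ → ℕ → ℕ) (j s : ℕ) : ℕ :=
  ∑ k ∈ range (2 ^ (β + 1)), hh β (2 ^ (β + 1) + j - k) * u2 β K1 x k s

/-- final twiddle -/
def zz (β K1 : ℕ) (x : ℕ → ℕ → ℕ) (j s : ℕ) : ℕ :=
  pw β (-(((j + 1).choose 2 : ℕ) : ℤ) - (β + 1)) * c2 β K1 x j s

theorem two_zpow_log (β : ℕ) : ((2 : ZMod (md β)) ^ (β + 1)) =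
    (((two β) ^ ((β : ℤ) + 1) : (ZMod (md β))ˣ) : ZMod (md β)) := by
  have : ((β : ℤ) + 1) = ((β + 1 : ℕ) : ℤ) := by push_cast; ring
  rw [this, zpow_natCast]; simp

/-- chirp exponent identity -/
theorem choose_two_int (n : ℕ) : 2 * ((n.choose 2 : ℕ) : ℤ) = (n : ℤ) * ((n : ℤ) - 1) := by
  have h := Nat.choose_two_right n
  have h2 : 2 * n.choose 2 = n * (n - 1) := by
    rw [h]; exact Nat.mul_div_cancel' (Nat.even_mul_pred_self n).two_dvd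
  rcases n with _ | n
  · simp
  · have : (2 * ((n + 1).choose 2) : ℤ) = ((n + 1 : ℕ) : ℤ) * ((n : ℕ) : ℤ) := by
      exact_mod_cast h2
    push_cast at this ⊢
    linarith

theorem hh_cast (β k i : ℕ) (hi : i ≤ 2 ^ (β + 1) + k) :
    (hh β (2 ^ (β + 1) + k - i) : ZMod (md β)) =
      - (((two β) ^ ((((k + 1).choose 2 : ℕ) : ℤ) + ((i.choose 2 : ℕ) : ℤ) - (k : ℤ) * i) :
        (ZMod (md β))ˣ) : ZMod (md β)) := by
  unfold hh
  rw [pw_cast]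
  have h : (((2 ^ (β + 1) + k - i + 1).choose 2 : ℕ) : ℤ) =
      ((((k + 1).choose 2 : ℕ) : ℤ) + ((i.choose 2 : ℕ) : ℤ) - (k : ℤ) * i)
        + ((2 ^ β : ℕ) : ℤ) + ((2 ^ (β + 1) : ℕ) : ℤ) * ((2 ^ β : ℕ) + (k : ℤ) - i) := by
    have e1 := choose_two_int (2 ^ (β + 1) + k - i + 1)
    have e2 := choose_two_int (k + 1)
    have e3 := choose_two_int i
    have e4 : ((2 ^ (β + 1) + k - i + 1 : ℕ) : ℤ) = ((2 ^ (β + 1) : ℕ) : ℤ) + k - i + 1 := by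
      push_cast [Nat.cast_sub hi]; ring
    rw [e4] at e1
    have e5 : ((2 ^ (β + 1) : ℕ) : ℤ) = 2 * ((2 ^ β : ℕ) : ℤ) := by push_cast; ring
    rw [e5] at e1 ⊢
    push_cast at e1 e2 e3 ⊢
    nlinarith
  rw [h, zpow_add, zpow_add, zpow_mul, zpow_natCast, zpow_natCast, two_order, one_zpow, mul_one,
    Units.val_mul, two_half, mul_neg, mul_one]

theorem c1_cast (β K1 : ℕ) (hK : K1 ≤ 2 ^ (β + 1)) (x : ℕ → ℕ → ℕ) (k s : ℕ) :
    (c1 β K1 x k s : ZMod (md β)) = - ∑ i ∈ range K1,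
      (((two β) ^ ((((k + 1).choose 2 : ℕ) : ℤ) - (k : ℤ) * i) : (ZMod (md β))ˣ) : ZMod (md β))
        * (x i s : ZMod (md β)) := by
  unfold c1 u1
  push_cast
  rw [← sum_neg_distrib]
  refine sum_congr rfl fun i hi => ?_
  have hi' := mem_range.1 hi
  rw [hh_cast β k i (by omega), pw_cast, neg_mul, ← mul_assoc, ← Units.val_mul, ← zpow_add]
  have e : ((((k + 1).choose 2 : ℕ) : ℤ) + ((i.choose 2 : ℕ) : ℤ) - (k : ℤ) * i)
      + -((i.choose 2 : ℕ) : ℤ) = (((k + 1).choose 2 : ℕ) : ℤ) - (k : ℤ) * i := by ring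
  rw [e]

/-- the main congruence of the core operation -/
theorem zz_cast (β K1 : ℕ) (hK : K1 ≤ 2 ^ (β + 1)) (x : ℕ → ℕ → ℕ) (j s : ℕ) :
    (zz β K1 x j s : ZMod (md β)) = ∑ i ∈ range K1,
      if ((2 ^ (β + 1) : ℕ) : ℤ) ∣ (s : ℤ) - i - j then (x i s : ZMod (md β)) else 0 := by
  unfold zz c2 u2
  push_cast
  have h1 : ∀ k ∈ range (2 ^ (β + 1)), (hh β (2 ^ (β + 1) + j - k) : ZMod (md β)) *
      ((pw β ((k : ℤ) * ((s : ℤ) - k)) : ZMod (md β)) * (c1 β K1 x k s : ZMod (md β)))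
      = ∑ i ∈ range K1, (((two β) ^ ((((j + 1).choose 2 : ℕ) : ℤ)) : (ZMod (md β))ˣ) : ZMod (md β)) *
        ((((two β) ^ ((s : ℤ) - i - j)) ^ k : (ZMod (md β))ˣ) : ZMod (md β)) *
        (x i s : ZMod (md β)) := by
    intro k hk
    have hk' := mem_range.1 hk
    rw [hh_cast β j k (by omega), pw_cast, c1_cast β K1 hK, neg_mul, mul_neg, mul_neg, neg_neg,
      mul_sum, mul_sum]
    refine sum_congr rfl fun i _ => ?_
    rw [← mul_assoc, ← mul_assoc, ← Units.val_mul, ← Units.val_mul, ← Units.val_mul,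
      ← zpow_add, ← zpow_add, ← zpow_natCast, ← zpow_mul, ← zpow_add]
    congr 3
    have e2 := choose_two_int (k + 1)
    have e3 := choose_two_int k
    push_cast at e2 e3
    nlinarith
  rw [sum_congr rfl h1, sum_comm, mul_sum]
  refine sum_congr rfl fun i _ => ?_
  rw [← sum_mul, ← mul_sum, pw_cast]
  split_ifs with hd
  · rw [sum_root_dvd β _ hd, two_zpow_log, ← mul_assoc, ← mul_assoc, ← Units.val_mul,
      ← Units.val_mul, ← zpow_add, ← zpow_add]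
    have : (-(((j + 1).choose 2 : ℕ) : ℤ) - ((β:ℤ) + 1) + (((j + 1).choose 2 : ℕ) : ℤ) + ((β : ℤ) + 1)) = 0 := by
      ring
    rw [this]; simp
  · rw [sum_root β _ hd]; simp

/-- the core operation transposes -/
theorem zz_modEq (β K1 : ℕ) (hK : K1 ≤ 2 ^ (β + 1)) (x : ℕ → ℕ → ℕ) (i j : ℕ) (hi : i < K1) :
    zz β K1 x j (i + j) ≡ x i (i + j) [MOD md β] := by
  rw [← ZMod.natCast_eq_natCast_iff, zz_cast β K1 hK, sum_eq_single i]
  · rw [if_pos]; push_cast; simp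
  · intro i' hi' hne
    have hi'' := mem_range.1 hi'
    rw [if_neg]
    rintro ⟨q, hq⟩
    have h1 : (i : ℤ) - i' = ((2 ^ (β + 1) : ℕ) : ℤ) * q := by
      rw [← hq]; push_cast; ring
    have hpos : (0:ℤ) < ((2 ^ (β + 1) : ℕ) : ℤ) := by positivity
    have h2 : |(i : ℤ) - i'| < ((2 ^ (β + 1) : ℕ) : ℤ) := by
      rw [abs_lt]; constructor <;> omega
    rw [h1, abs_mul, abs_of_pos hpos] at h2
    have h3 : |q| < 1 := by
      by_contra hc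
      push Not at hc
      nlinarith
    have h4 : q = 0 := by
      rw [abs_lt] at h3; omega
    rw [h4, mul_zero] at h1
    apply hne
    omega
  · intro h; exact absurd (mem_range.2 hi) h

/-! ### bounds -/

theorem pw_le (β : ℕ) (e : ℤ) : pw β e ≤ 2 ^ (2 * 2 ^ β - 1) := by
  have h := pw_lt β e
  have h1 : 2 ^ (β + 1) = (2 * 2 ^ β - 1) + 1 := by
    have : 1 ≤ 2 ^ β := Nat.one_le_two_pow
    rw [pow_succ]; omega
  rw [h1, pow_succ] at h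
  omega

theorem pw_pos (β : ℕ) (e : ℤ) : 0 < pw β e := by unfold pw; positivity

theorem b_le (β : ℕ) : 2 * 2 ^ β ≤ 2 ^ (2 ^ β) := by
  have h : β + 1 ≤ 2 ^ β := Nat.lt_two_pow_self
  calc 2 * 2 ^ β = 2 ^ (β + 1) := by ring
    _ ≤ _ := Nat.pow_le_pow_right (by norm_num) h

theorem u1_lt (β : ℕ) (x : ℕ → ℕ → ℕ) (hx : ∀ i s, x i s < 2 ^ (2 ^ β)) (i s : ℕ) :
    u1 β x i s < 2 ^ (3 * 2 ^ β - 1) := by
  unfold u1
  have h1 := pw_le β (-((i.choose 2 : ℕ) : ℤ))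
  have h2 := hx i s
  have hb : 1 ≤ 2 ^ β := Nat.one_le_two_pow
  calc _ ≤ 2 ^ (2 * 2 ^ β - 1) * x i s := Nat.mul_le_mul_right _ h1
    _ < 2 ^ (2 * 2 ^ β - 1) * 2 ^ (2 ^ β) := Nat.mul_lt_mul_of_pos_left h2 (by positivity)
    _ = _ := by rw [← pow_add]; congr 1; omega

theorem hh_le (β m : ℕ) : hh β m ≤ 2 ^ (2 * 2 ^ β - 1) := pw_le _ _

/-- generic bound for a sum of at most `2b` products with the kernel -/
theorem conv_lt (β n a : ℕ) (hn : n ≤ 2 ^ (β + 1)) (h u : ℕ → ℕ) (hh : ∀ m, h m ≤ 2 ^ (2 * 2 ^ β - 1))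
    (hu : ∀ m, u m < 2 ^ a) :
    ∑ i ∈ range n, h i * u i < 2 ^ (3 * 2 ^ β - 1 + a) := by
  have hb : 1 ≤ 2 ^ β := Nat.one_le_two_pow
  have h1 : ∀ i ∈ range n, h i * u i ≤ 2 ^ (2 * 2 ^ β - 1) * (2 ^ a - 1) := by
    intro i _
    exact Nat.mul_le_mul (hh i) (by have := hu i; omega)
  have h3 : 0 < 2 ^ (2 * 2 ^ β - 1) := by positivity
  have h4 : 0 < 2 ^ a := by positivity
  calc ∑ i ∈ range n, h i * u i ≤ ∑ i ∈ range n, 2 ^ (2 * 2 ^ β - 1) * (2 ^ a - 1) := sum_le_sum h1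
    _ = n * (2 ^ (2 * 2 ^ β - 1) * (2 ^ a - 1)) := by rw [sum_const, card_range, smul_eq_mul]
    _ ≤ 2 ^ (2 ^ β) * (2 ^ (2 * 2 ^ β - 1) * (2 ^ a - 1)) := by
        apply Nat.mul_le_mul_right
        refine hn.trans ?_
        have := b_le β
        rw [pow_succ]; omega
    _ < 2 ^ (2 ^ β) * (2 ^ (2 * 2 ^ β - 1) * 2 ^ a) := by
        apply Nat.mul_lt_mul_of_pos_left _ (by positivity)
        apply Nat.mul_lt_mul_of_pos_left _ (by positivity)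
        omega
    _ = _ := by rw [← pow_add, ← pow_add]; congr 1; omega

theorem c1_lt (β K1 : ℕ) (hK : K1 ≤ 2 ^ (β + 1)) (x : ℕ → ℕ → ℕ) (hx : ∀ i s, x i s < 2 ^ (2 ^ β))
    (k s : ℕ) : c1 β K1 x k s < 2 ^ (6 * 2 ^ β - 2) := by
  have h := conv_lt β K1 (3 * 2 ^ β - 1) hK (fun i => hh β (2 ^ (β + 1) + k - i)) (fun i => u1 β x i s)
    (fun m => hh_le β _) (fun m => u1_lt β x hx m s)
  have hb : 1 ≤ 2 ^ β := Nat.one_le_two_pow
  have e : 3 * 2 ^ β - 1 + (3 * 2 ^ β - 1) = 6 * 2 ^ β - 2 := by omega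
  rw [e] at h
  exact h

theorem u2_lt (β K1 : ℕ) (hK : K1 ≤ 2 ^ (β + 1)) (x : ℕ → ℕ → ℕ) (hx : ∀ i s, x i s < 2 ^ (2 ^ β))
    (k s : ℕ) : u2 β K1 x k s < 2 ^ (8 * 2 ^ β - 3) := by
  unfold u2
  have h1 := pw_le β ((k : ℤ) * ((s : ℤ) - k))
  have h2 := c1_lt β K1 hK x hx k s
  have hb : 1 ≤ 2 ^ β := Nat.one_le_two_pow
  calc _ ≤ 2 ^ (2 * 2 ^ β - 1) * c1 β K1 x k s := Nat.mul_le_mul_right _ h1
    _ < 2 ^ (2 * 2 ^ β - 1) * 2 ^ (6 * 2 ^ β - 2) := Nat.mul_lt_mul_of_pos_left h2 (by positivity)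
    _ = _ := by rw [← pow_add]; congr 1; omega

theorem c2_lt (β K1 : ℕ) (hK : K1 ≤ 2 ^ (β + 1)) (x : ℕ → ℕ → ℕ) (hx : ∀ i s, x i s < 2 ^ (2 ^ β))
    (j s : ℕ) : c2 β K1 x j s < 2 ^ (11 * 2 ^ β - 4) := by
  have h := conv_lt β (2 ^ (β + 1)) (8 * 2 ^ β - 3) le_rfl (fun k => hh β (2 ^ (β + 1) + j - k))
    (fun k => u2 β K1 x k s) (fun m => hh_le β _) (fun m => u2_lt β K1 hK x hx m s)
  have hb : 1 ≤ 2 ^ β := Nat.one_le_two_pow
  have e : 3 * 2 ^ β - 1 + (8 * 2 ^ β - 3) = 11 * 2 ^ β - 4 := by omega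
  rw [e] at h
  exact h

theorem zz_lt (β K1 : ℕ) (hK : K1 ≤ 2 ^ (β + 1)) (x : ℕ → ℕ → ℕ) (hx : ∀ i s, x i s < 2 ^ (2 ^ β))
    (j s : ℕ) : zz β K1 x j s < 2 ^ (13 * 2 ^ β - 5) := by
  unfold zz
  have h1 := pw_le β (-(((j + 1).choose 2 : ℕ) : ℤ) - (β + 1))
  have h2 := c2_lt β K1 hK x hx j s
  have hb : 1 ≤ 2 ^ β := Nat.one_le_two_pow
  calc _ ≤ 2 ^ (2 * 2 ^ β - 1) * c2 β K1 x j s := Nat.mul_le_mul_right _ h1
    _ < 2 ^ (2 * 2 ^ β - 1) * 2 ^ (11 * 2 ^ β - 4) := Nat.mul_lt_mul_of_pos_left h2 (by positivity)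
    _ = _ := by rw [← pow_add]; congr 1; omega

/-- a value below the modulus with the right residue is the element -/
theorem eq_of_modEq (β v x : ℕ) (hv : v ≤ 2 ^ (2 ^ β)) (hx : x < 2 ^ (2 ^ β))
    (h : v ≡ x [MOD md β]) : v = x := by
  have h1 : v < md β := by unfold md; omega
  have h2 : x < md β := by unfold md; omega
  exact Nat.ModEq.eq_of_lt_of_lt h h1 h2

end Vale.Agent.P338.H373
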