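import Vale.Agent.P338.H373.Chirp

/-!
# The chirp identity of the fast column shear (proposal E)

`K = 2b = 2^(β+1)`, ring `Z/(2^b+1)`, root of unity `2` of order `K`.
For one column `w` with digit `d = w mod K`, the rows `x 0, ..., x (K-1)` are sent to
`y j = x ((j - d) mod K)`.
-/

open Finset

namespace Vale.Agent.P338.H373

/-- first kernel `2^(-m(m+1)/2)` -/
def hE (β m : ℕ) : ℕ := pw β (-(((m + 1).choose 2 : ℕ) : ℤ))

/-- second kernel `2^(m(m+1)/2)` is `hh` -/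
theorem hh_def (β m : ℕ) : hh β m = pw β ((m + 1).choose 2 : ℕ) := rfl

/-- data after the first twiddle -/
def uE1 (β : ℕ) (x : ℕ → ℕ) (i : ℕ) : ℕ := pw β ((i.choose 2 : ℕ) : ℤ) * x i

/-- first convolution, window row `K + k` -/
def cE1 (β : ℕ) (x : ℕ → ℕ) (k : ℕ) : ℕ :=
  ∑ i ∈ range (2 ^ (β + 1)), hE β (2 ^ (β + 1) + k - i) * uE1 β x i

/-- data after the second twiddle -/
def uE2 (β d : ℕ) (x : ℕ → ℕ) (k : ℕ) : ℕ := pw β ((k : ℤ) * ((d : ℤ) + 1)) * cE1 β x k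

/-- second convolution, window row `K + j` -/
def cE2 (β d : ℕ) (x : ℕ → ℕ) (j : ℕ) : ℕ :=
  ∑ k ∈ range (2 ^ (β + 1)), hh β (2 ^ (β + 1) + j - k) * uE2 β d x k

/-- final twiddle -/
def zE (β d : ℕ) (x : ℕ → ℕ) (j : ℕ) : ℕ :=
  pw β (-(((j + 1).choose 2 : ℕ) : ℤ) - (β + 1)) * cE2 β d x j

theorem choose_shift (β k i : ℕ) (hi : i ≤ 2 ^ (β + 1) + k) :
    (((2 ^ (β + 1) + k - i + 1).choose 2 : ℕ) : ℤ) =
      ((((k + 1).choose 2 : ℕ) : ℤ) + ((i.choose 2 : ℕ) : ℤ) - (k : ℤ) * i)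
        + ((2 ^ β : ℕ) : ℤ) + ((2 ^ (β + 1) : ℕ) : ℤ) * ((2 ^ β : ℕ) + (k : ℤ) - i) := by
  have e1 := choose_two_int (2 ^ (β + 1) + k - i + 1)
  have e2 := choose_two_int (k + 1)
  have e3 := choose_two_int i
  have e4 : ((2 ^ (β + 1) + k - i + 1 : ℕ) : ℤ) = ((2 ^ (β + 1) : ℕ) : ℤ) + k - i + 1 := by
    push_cast [Nat.cast_sub hi]; ring
  rw [e4] at e1
  have e5 : ((2 ^ (β + 1) : ℕ) : ℤ) = 2 * ((2 ^ β : ℕ) : ℤ) := by push_cast; ring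
  rw [e5] at e1 ⊢
  push_cast at e1 e2 e3 ⊢
  nlinarith

theorem hE_cast (β k i : ℕ) (hi : i ≤ 2 ^ (β + 1) + k) :
    (hE β (2 ^ (β + 1) + k - i) : ZMod (md β)) =
      - (((two β) ^ (-(((k + 1).choose 2 : ℕ) : ℤ) - ((i.choose 2 : ℕ) : ℤ) + (k : ℤ) * i) :
        (ZMod (md β))ˣ) : ZMod (md β)) := by
  unfold hE
  rw [pw_cast, choose_shift β k i hi]
  have h : -(((((k + 1).choose 2 : ℕ) : ℤ) + ((i.choose 2 : ℕ) : ℤ) - (k : ℤ) * i)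
        + ((2 ^ β : ℕ) : ℤ) + ((2 ^ (β + 1) : ℕ) : ℤ) * ((2 ^ β : ℕ) + (k : ℤ) - i)) =
      (-(((k + 1).choose 2 : ℕ) : ℤ) - ((i.choose 2 : ℕ) : ℤ) + (k : ℤ) * i)
        + ((2 ^ β : ℕ) : ℤ) + ((2 ^ (β + 1) : ℕ) : ℤ) * (-1 - (2 ^ β : ℕ) - (k : ℤ) + i) := by
    have e5 : ((2 ^ (β + 1) : ℕ) : ℤ) = 2 * ((2 ^ β : ℕ) : ℤ) := by push_cast; ring
    rw [e5]; ring
  rw [h, zpow_add, zpow_add, zpow_mul, zpow_natCast, zpow_natCast, two_order, one_zpow, mul_one,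
    Units.val_mul, two_half, mul_neg, mul_one]

theorem cE1_cast (β : ℕ) (x : ℕ → ℕ) (k : ℕ) :
    (cE1 β x k : ZMod (md β)) = - ∑ i ∈ range (2 ^ (β + 1)),
      (((two β) ^ (-(((k + 1).choose 2 : ℕ) : ℤ) + (k : ℤ) * i) : (ZMod (md β))ˣ) : ZMod (md β))
        * (x i : ZMod (md β)) := by
  unfold cE1 uE1
  push_cast
  rw [← sum_neg_distrib]
  refine sum_congr rfl fun i hi => ?_
  have hi' := mem_range.1 hi
  rw [hE_cast β k i (by omega), pw_cast, neg_mul, ← mul_assoc, ← Units.val_mul, ← zpow_add]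
  have e : (-(((k + 1).choose 2 : ℕ) : ℤ) - ((i.choose 2 : ℕ) : ℤ) + (k : ℤ) * i)
      + ((i.choose 2 : ℕ) : ℤ) = -(((k + 1).choose 2 : ℕ) : ℤ) + (k : ℤ) * i := by ring
  rw [e]

/-- the main congruence -/
theorem zE_cast (β d : ℕ) (x : ℕ → ℕ) (j : ℕ) :
    (zE β d x j : ZMod (md β)) = ∑ i ∈ range (2 ^ (β + 1)),
      if ((2 ^ (β + 1) : ℕ) : ℤ) ∣ (i : ℤ) + d - j then (x i : ZMod (md β)) else 0 := by
  unfold zE cE2 uE2
  push_cast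
  have h1 : ∀ k ∈ range (2 ^ (β + 1)), (hh β (2 ^ (β + 1) + j - k) : ZMod (md β)) *
      ((pw β ((k : ℤ) * ((d : ℤ) + 1)) : ZMod (md β)) * (cE1 β x k : ZMod (md β)))
      = ∑ i ∈ range (2 ^ (β + 1)),
        (((two β) ^ ((((j + 1).choose 2 : ℕ) : ℤ)) : (ZMod (md β))ˣ) : ZMod (md β)) *
        ((((two β) ^ ((i : ℤ) + d - j)) ^ k : (ZMod (md β))ˣ) : ZMod (md β)) *
        (x i : ZMod (md β)) := by
    intro k hk
    have hk' := mem_range.1 hk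
    rw [hh_cast β j k (by omega), pw_cast, cE1_cast β, neg_mul, mul_neg, mul_neg, neg_neg,
      mul_sum, mul_sum]
    refine sum_congr rfl fun i _ => ?_
    rw [← mul_assoc, ← mul_assoc, ← Units.val_mul, ← Units.val_mul, ← Units.val_mul,
      ← zpow_add, ← zpow_add, ← zpow_natCast, ← zpow_mul, ← zpow_add]
    congr 3
    have e2 := choose_two_int (k + 1)
    have e3 := choose_two_int k
    push_cast at e2 e3
    nlinarith
  rw [sum_congr rfl h1, sum_comm, mul_sum]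
  refine sum_congr rfl fun i _ => ?_
  rw [← sum_mul, ← mul_sum, pw_cast]
  split_ifs with hd
  · rw [sum_root_dvd β _ hd, two_zpow_log, ← mul_assoc, ← mul_assoc, ← Units.val_mul,
      ← Units.val_mul, ← zpow_add, ← zpow_add]
    have : (-(((j + 1).choose 2 : ℕ) : ℤ) - ((β:ℤ) + 1) + (((j + 1).choose 2 : ℕ) : ℤ) + ((β : ℤ) + 1)) = 0 := by
      ring
    rw [this]; simp
  · rw [sum_root β _ hd]; simp

/-- the fast column shear: `y j = x ((j - d) mod K)` -/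
theorem zE_modEq (β d : ℕ) (x : ℕ → ℕ) (j : ℕ) (i : ℕ) (hi : i < 2 ^ (β + 1))
    (hij : (i + d) % 2 ^ (β + 1) = j % 2 ^ (β + 1)) :
    zE β d x j ≡ x i [MOD md β] := by
  have hdvd : ((2 ^ (β + 1) : ℕ) : ℤ) ∣ (i : ℤ) + d - j := by
    have h : (j : ℕ) ≡ i + d [MOD 2 ^ (β + 1)] := hij.symm
    have := (Nat.modEq_iff_dvd).1 h
    push_cast at this ⊢
    exact this
  rw [← ZMod.natCast_eq_natCast_iff, zE_cast β, sum_eq_single i]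
  · rw [if_pos hdvd]
  · intro i' hi' hne
    have hi'' := mem_range.1 hi'
    rw [if_neg]
    intro hd'
    obtain ⟨q, hq⟩ := dvd_sub hdvd hd'
    have h1 : (i : ℤ) - i' = ((2 ^ (β + 1) : ℕ) : ℤ) * q := by
      rw [← hq]; ring
    have hpos : (0:ℤ) < ((2 ^ (β + 1) : ℕ) : ℤ) := by positivity
    have h2 : |(i : ℤ) - i'| < ((2 ^ (β + 1) : ℕ) : ℤ) := by
      rw [abs_lt]; constructor <;> omega
    rw [h1, abs_mul, abs_of_pos hpos] at h2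
    have h3 : |q| < 1 := by
      by_contra hc
      push Not at hc
      nlinarith
    have h4 : q = 0 := by
      rw [abs_lt] at h3; omega
    rw [h4, mul_zero] at h1
    apply hne
    omega
  · intro h; exact absurd (mem_range.2 hi) h

/-- explicit form: for `j < K`, `d < K`: `y j = x ((j + (K - d)) % K)` -/
theorem zE_modEq' (β d : ℕ) (x : ℕ → ℕ) (j : ℕ) (hd : d ≤ 2 ^ (β + 1)) :
    zE β d x j ≡ x ((j + (2 ^ (β + 1) - d)) % 2 ^ (β + 1)) [MOD md β] := by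
  apply zE_modEq β d x j _ (Nat.mod_lt _ (by positivity))
  rw [Nat.mod_add_mod]
  have : j + (2 ^ (β + 1) - d) + d = j + 2 ^ (β + 1) := by omega
  rw [this, Nat.add_mod_right]

/-! ### bounds -/

theorem hE_le (β m : ℕ) : hE β m ≤ 2 ^ (2 * 2 ^ β - 1) := pw_le _ _

theorem uE1_lt (β : ℕ) (x : ℕ → ℕ) (hx : ∀ i, x i < 2 ^ (2 ^ β)) (i : ℕ) :
    uE1 β x i < 2 ^ (3 * 2 ^ β - 1) := by
  unfold uE1
  have h1 := pw_le β ((i.choose 2 : ℕ) : ℤ)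
  have h2 := hx i
  have hb : 1 ≤ 2 ^ β := Nat.one_le_two_pow
  calc _ ≤ 2 ^ (2 * 2 ^ β - 1) * x i := Nat.mul_le_mul_right _ h1
    _ < 2 ^ (2 * 2 ^ β - 1) * 2 ^ (2 ^ β) := Nat.mul_lt_mul_of_pos_left h2 (by positivity)
    _ = _ := by rw [← pow_add]; congr 1; omega

theorem cE1_lt (β : ℕ) (x : ℕ → ℕ) (hx : ∀ i, x i < 2 ^ (2 ^ β)) (k : ℕ) :
    cE1 β x k < 2 ^ (6 * 2 ^ β - 2) := by
  have h := conv_lt β (2 ^ (β + 1)) (3 * 2 ^ β - 1) le_rfl (fun i => hE β (2 ^ (β + 1) + k - i))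
    (fun i => uE1 β x i) (fun m => hE_le β _) (fun m => uE1_lt β x hx m)
  have hb : 1 ≤ 2 ^ β := Nat.one_le_two_pow
  have e : 3 * 2 ^ β - 1 + (3 * 2 ^ β - 1) = 6 * 2 ^ β - 2 := by omega
  rw [e] at h
  exact h

theorem uE2_lt (β d : ℕ) (x : ℕ → ℕ) (hx : ∀ i, x i < 2 ^ (2 ^ β)) (k : ℕ) :
    uE2 β d x k < 2 ^ (8 * 2 ^ β - 3) := by
  unfold uE2
  have h1 := pw_le β ((k : ℤ) * ((d : ℤ) + 1))
  have h2 := cE1_lt β x hx k
  have hb : 1 ≤ 2 ^ β := Nat.one_le_two_pow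
  calc _ ≤ 2 ^ (2 * 2 ^ β - 1) * cE1 β x k := Nat.mul_le_mul_right _ h1
    _ < 2 ^ (2 * 2 ^ β - 1) * 2 ^ (6 * 2 ^ β - 2) := Nat.mul_lt_mul_of_pos_left h2 (by positivity)
    _ = _ := by rw [← pow_add]; congr 1; omega

theorem cE2_lt (β d : ℕ) (x : ℕ → ℕ) (hx : ∀ i, x i < 2 ^ (2 ^ β)) (j : ℕ) :
    cE2 β d x j < 2 ^ (11 * 2 ^ β - 4) := by
  have h := conv_lt β (2 ^ (β + 1)) (8 * 2 ^ β - 3) le_rfl (fun k => hh β (2 ^ (β + 1) + j - k))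
    (fun k => uE2 β d x k) (fun m => hh_le β _) (fun m => uE2_lt β d x hx m)
  have hb : 1 ≤ 2 ^ β := Nat.one_le_two_pow
  have e : 3 * 2 ^ β - 1 + (8 * 2 ^ β - 3) = 11 * 2 ^ β - 4 := by omega
  rw [e] at h
  exact h

theorem zE_lt (β d : ℕ) (x : ℕ → ℕ) (hx : ∀ i, x i < 2 ^ (2 ^ β)) (j : ℕ) :
    zE β d x j < 2 ^ (13 * 2 ^ β - 5) := by
  unfold zE
  have h1 := pw_le β (-(((j + 1).choose 2 : ℕ) : ℤ) - (β + 1))
  have h2 := cE2_lt β d x hx j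
  have hb : 1 ≤ 2 ^ β := Nat.one_le_two_pow
  calc _ ≤ 2 ^ (2 * 2 ^ β - 1) * cE2 β d x j := Nat.mul_le_mul_right _ h1
    _ < 2 ^ (2 * 2 ^ β - 1) * 2 ^ (11 * 2 ^ β - 4) := Nat.mul_lt_mul_of_pos_left h2 (by positivity)
    _ = _ := by rw [← pow_add]; congr 1; omega

end Vale.Agent.P338.H373
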