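import Vale.Agent.P338.H373.Chirp

/-!
# Exponents of the twiddle factors as counters modulo `2b = 2^(β+1)`

`ex β e` is the residue of the integer `e` in `[0, 2b)`; `pw β e = 2 ^ ex β e`.
All four exponent sequences of the core operation are given by additions / subtractions of
small counters.
-/

open Finset

namespace Vale.Agent.P338.H373

/-- residue modulo `2b` as a natural number -/
def ex (β : ℕ) (e : ℤ) : ℕ := (e % (2 ^ (β + 1) : ℕ)).toNat

theorem pw_eq (β : ℕ) (e : ℤ) : pw β e = 2 ^ ex β e := rfl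

theorem pos2b (β : ℕ) : (0:ℤ) < ((2 ^ (β + 1) : ℕ) : ℤ) := by positivity

theorem ex_cast (β : ℕ) (e : ℤ) : ((ex β e : ℕ) : ℤ) = e % ((2 ^ (β + 1) : ℕ) : ℤ) := by
  unfold ex
  exact Int.toNat_of_nonneg (Int.emod_nonneg _ (pos2b β).ne')

theorem ex_lt (β : ℕ) (e : ℤ) : ex β e < 2 ^ (β + 1) := by
  have h := Int.emod_lt_of_pos e (pos2b β)
  rw [← ex_cast] at h
  exact_mod_cast h

theorem ex_natCast (β : ℕ) (n : ℕ) : ex β (n : ℤ) = n % 2 ^ (β + 1) := by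
  have h := ex_cast β n
  exact_mod_cast h

theorem ex_of_lt (β : ℕ) (n : ℕ) (h : n < 2 ^ (β + 1)) : ex β (n : ℤ) = n := by
  rw [ex_natCast, Nat.mod_eq_of_lt h]

@[simp] theorem ex_zero (β : ℕ) : ex β 0 = 0 := by
  have := ex_natCast β 0
  simpa using this

theorem ex_add (β : ℕ) (e d : ℤ) : ex β (e + d) = (ex β e + ex β d) % 2 ^ (β + 1) := by
  have h : ((ex β (e + d) : ℕ) : ℤ) = (((ex β e + ex β d) % 2 ^ (β + 1) : ℕ) : ℤ) := by
    rw [ex_cast]
    push_cast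
    have h1 := ex_cast β e
    have h2 := ex_cast β d
    push_cast at h1 h2
    rw [h1, h2]
    exact Int.add_emod e d _
  exact_mod_cast h

/-- characterisation of the residue -/
theorem ex_eq_iff (β : ℕ) (e : ℤ) (n : ℕ) (hn : n < 2 ^ (β + 1)) :
    ex β e = n ↔ ((2 ^ (β + 1) : ℕ) : ℤ) ∣ e - n := by
  constructor
  · intro h
    rw [← h, ex_cast]
    exact Int.dvd_self_sub_emod
  · intro h
    have h1 : e % ((2 ^ (β + 1) : ℕ) : ℤ) = (n : ℤ) % ((2 ^ (β + 1) : ℕ) : ℤ) :=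
      Int.emod_eq_emod_iff_emod_sub_eq_zero.2 (Int.emod_eq_zero_of_dvd h)
    have h2 := ex_cast β e
    rw [h1, Int.emod_eq_of_lt (by positivity) (by exact_mod_cast hn)] at h2
    exact_mod_cast h2

/-- complement -/
theorem ex_neg (β : ℕ) (e : ℤ) : ex β (-e) = (2 ^ (β + 1) - ex β e) % 2 ^ (β + 1) := by
  have hlt := ex_lt β e
  rw [ex_eq_iff _ _ _ (Nat.mod_lt _ (by positivity))]
  obtain ⟨q, hq⟩ := (ex_eq_iff β e (ex β e) hlt).1 rfl
  rcases Nat.eq_zero_or_pos (ex β e) with h0 | h0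
  · rw [h0, Nat.sub_zero, Nat.mod_self]
    rw [h0] at hq
    exact ⟨-q, by push_cast at hq ⊢; linarith⟩
  · rw [Nat.mod_eq_of_lt (by omega)]
    refine ⟨-q - 1, ?_⟩
    rw [Nat.cast_sub hlt.le]
    push_cast at hq ⊢
    linarith

theorem ex_sub (β : ℕ) (e d : ℤ) :
    ex β (e - d) = (ex β e + (2 ^ (β + 1) - ex β d)) % 2 ^ (β + 1) := by
  rw [sub_eq_add_neg, ex_add, ex_neg]
  simp

/-- one forward step of a rotating unary counter -/
theorem ex_succ (β : ℕ) (e : ℤ) :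
    ex β (e + 1) = if ex β e + 1 = 2 ^ (β + 1) then 0 else ex β e + 1 := by
  have h1 : ex β 1 = 1 % 2 ^ (β + 1) := by
    have := ex_natCast β 1
    simpa using this
  have h2 := ex_lt β e
  rw [ex_add, h1, Nat.add_mod_mod]
  split_ifs with h
  · rw [h, Nat.mod_self]
  · exact Nat.mod_eq_of_lt (by omega)

/-- one backward step of a rotating unary counter -/
theorem ex_pred (β : ℕ) (e : ℤ) :
    ex β (e - 1) = if ex β e = 0 then 2 ^ (β + 1) - 1 else ex β e - 1 := by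
  have h2 := ex_lt β e
  have h3 := ex_succ β (e - 1)
  rw [sub_add_cancel] at h3
  have h4 := ex_lt β (e - 1)
  split_ifs at h3 with h
  · rw [h3, if_pos rfl]; omega
  · rw [h3, if_neg (by omega)]; omega

/-! ### the four sequences -/

/-- exponent of the kernel -/
def eh (β m : ℕ) : ℕ := ex β ((m + 1).choose 2 : ℕ)
/-- exponent of the first twiddle -/
def ea (β i : ℕ) : ℕ := ex β (-((i.choose 2 : ℕ) : ℤ))
/-- exponent of the second twiddle -/
def em (β k s : ℕ) : ℕ := ex β ((k : ℤ) * ((s : ℤ) - k))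
/-- exponent of the last twiddle -/
def ez (β j : ℕ) : ℕ := ex β (-(((j + 1).choose 2 : ℕ) : ℤ) - (β + 1))

theorem hh_eq (β m : ℕ) : hh β m = 2 ^ eh β m := rfl
theorem u1_eq (β : ℕ) (x : ℕ → ℕ → ℕ) (i s : ℕ) : u1 β x i s = 2 ^ ea β i * x i s := rfl
theorem u2_eq (β K1 : ℕ) (x : ℕ → ℕ → ℕ) (k s : ℕ) : u2 β K1 x k s = 2 ^ em β k s * c1 β K1 x k s := rfl
theorem zz_eq (β K1 : ℕ) (x : ℕ → ℕ → ℕ) (j s : ℕ) : zz β K1 x j s = 2 ^ ez β j * c2 β K1 x j s := rfl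

theorem eh_lt (β m : ℕ) : eh β m < 2 ^ (β + 1) := ex_lt _ _
theorem ea_lt (β m : ℕ) : ea β m < 2 ^ (β + 1) := ex_lt _ _
theorem em_lt (β k s : ℕ) : em β k s < 2 ^ (β + 1) := ex_lt _ _
theorem ez_lt (β j : ℕ) : ez β j < 2 ^ (β + 1) := ex_lt _ _

theorem eh_zero (β : ℕ) : eh β 0 = 0 := by unfold eh; simp

/-- `e += d` where the counter `d` holds `(m + 1) mod 2b` -/
theorem eh_succ (β m : ℕ) : eh β (m + 1) = (eh β m + (m + 1) % 2 ^ (β + 1)) % 2 ^ (β + 1) := by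
  unfold eh
  have h : (((m + 1 + 1).choose 2 : ℕ) : ℤ) = (((m + 1).choose 2 : ℕ) : ℤ) + ((m + 1 : ℕ) : ℤ) := by
    have := Nat.choose_succ_succ (m + 1) 1
    rw [Nat.choose_one_right] at this
    have h2 : (m + 1 + 1).choose 2 = (m + 1) + (m + 1).choose 2 := this
    rw [h2]; push_cast; ring
  rw [h, ex_add, ex_natCast β (m + 1)]

theorem ea_zero (β : ℕ) : ea β 0 = 0 := by unfold ea; simp

theorem ea_one (β : ℕ) : ea β 1 = 0 := by unfold ea; simp

/-- `e -= i` -/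
theorem ea_succ (β i : ℕ) :
    ea β (i + 1) = (ea β i + (2 ^ (β + 1) - i % 2 ^ (β + 1))) % 2 ^ (β + 1) := by
  unfold ea
  have h : (-(((i + 1).choose 2 : ℕ) : ℤ)) = (-((i.choose 2 : ℕ) : ℤ)) - ((i : ℕ) : ℤ) := by
    have := Nat.choose_succ_succ i 1
    rw [Nat.choose_one_right] at this
    have h2 : (i + 1).choose 2 = i + i.choose 2 := this
    rw [h2]; push_cast; ring
  rw [h, ex_sub, ex_natCast β i]

/-- start of row `k`: exponent `-k^2` -/
theorem em_zero (β k : ℕ) : em β k 0 = ex β (-((k : ℤ) ^ 2)) := by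
  unfold em; congr 1; push_cast; ring

/-- next column: `e += k` -/
theorem em_succ (β k s : ℕ) : em β k (s + 1) = (em β k s + k % 2 ^ (β + 1)) % 2 ^ (β + 1) := by
  unfold em
  have h : (k : ℤ) * (((s + 1 : ℕ) : ℤ) - k) = (k : ℤ) * ((s : ℤ) - k) + ((k : ℕ) : ℤ) := by
    push_cast; ring
  rw [h, ex_add, ex_natCast β k]

/-- next row start: `e -= 2k + 1` -/
theorem em_row (β k : ℕ) :
    em β (k + 1) 0 = (em β k 0 + (2 ^ (β + 1) - (2 * k + 1) % 2 ^ (β + 1))) % 2 ^ (β + 1) := by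
  rw [em_zero, em_zero]
  have h : (-(((k + 1 : ℕ) : ℤ) ^ 2)) = (-((k : ℤ) ^ 2)) - ((2 * k + 1 : ℕ) : ℤ) := by
    push_cast; ring
  rw [h, ex_sub, ex_natCast β (2 * k + 1)]

theorem ez_zero (β : ℕ) : ez β 0 = (2 ^ (β + 1) - (β + 1)) % 2 ^ (β + 1) := by
  unfold ez
  have h : (-(((0 + 1).choose 2 : ℕ) : ℤ) - ((β : ℤ) + 1)) = -((β + 1 : ℕ) : ℤ) := by
    simp
  rw [h, ex_neg, ex_natCast, Nat.mod_eq_of_lt (Nat.lt_two_pow_self)]

/-- `e -= j + 1` -/
theorem ez_succ (β j : ℕ) :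
    ez β (j + 1) = (ez β j + (2 ^ (β + 1) - (j + 1) % 2 ^ (β + 1))) % 2 ^ (β + 1) := by
  unfold ez
  have h : (-(((j + 1 + 1).choose 2 : ℕ) : ℤ) - ((β : ℤ) + 1))
      = (-(((j + 1).choose 2 : ℕ) : ℤ) - ((β : ℤ) + 1)) - ((j + 1 : ℕ) : ℤ) := by
    have := Nat.choose_succ_succ (j + 1) 1
    rw [Nat.choose_one_right] at this
    have h2 : (j + 1 + 1).choose 2 = (j + 1) + (j + 1).choose 2 := this
    rw [h2]; push_cast; ring
  rw [h, ex_sub, ex_natCast β (j + 1)]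

end Vale.Agent.P338.H373
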