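import Vale.Agent.P338.CoreSpecE
import Vale.Agent.P338.H373.ChirpE

/-!
# The exponents of `CoreSpecE`: values, bounds, recurrences

`b = 2^β` is needed only for the bridge to `pw`; bounds and recurrences hold for all `b ≥ 1`.
-/

open Finset

namespace Vale.Agent.P338.E

open Vale.Agent.P338 H373

/-! ### bridge to `pw` -/

theorem two_pow_ex (β : ℕ) (e : ℤ) : 2 ^ ex (2 ^ β) e = pw β e := by
  unfold ex pw
  have : (2 * ((2 ^ β : ℕ) : ℤ)) = ((2 ^ (β + 1) : ℕ) : ℤ) := by push_cast; ring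
  rw [this]

theorem half_choose (m : ℕ) : m * (m + 1) / 2 = (m + 1).choose 2 := by
  rw [Nat.choose_two_right, Nat.add_sub_cancel, Nat.mul_comm]

theorem two_pow_eh (β m : ℕ) : 2 ^ eh (2 ^ β) m = hE β m := by
  unfold eh hE; rw [two_pow_ex, half_choose]

theorem two_pow_eh' (β m : ℕ) : 2 ^ eh' (2 ^ β) m = hh β m := by
  unfold eh' hh; rw [two_pow_ex, half_choose]

theorem two_pow_e1 (β i : ℕ) : 2 ^ e1 (2 ^ β) i = pw β ((i.choose 2 : ℕ) : ℤ) := by
  unfold e1; rw [two_pow_ex, Nat.choose_two_right]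

theorem two_pow_e2 (β k d : ℕ) : 2 ^ e2 (2 ^ β) k d = pw β ((k : ℤ) * ((d : ℤ) + 1)) := by
  unfold e2; rw [two_pow_ex]; push_cast; rfl

theorem log_two_two_mul (β : ℕ) : Nat.log 2 (2 * 2 ^ β) = β + 1 := by
  rw [← pow_succ', Nat.log_pow (by norm_num)]

theorem two_pow_e3 (β j : ℕ) :
    2 ^ e3 (2 ^ β) j = pw β (-(((j + 1).choose 2 : ℕ) : ℤ) - (β + 1)) := by
  unfold e3
  rw [two_pow_ex, half_choose, log_two_two_mul]
  push_cast
  rfl

/-! ### the residue `ex b e` -/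

theorem ex_cast {b : ℕ} (hb : 0 < b) (e : ℤ) : ((ex b e : ℕ) : ℤ) = e % (2 * (b : ℤ)) := by
  unfold ex
  exact Int.toNat_of_nonneg (Int.emod_nonneg _ (by positivity))

theorem ex_lt {b : ℕ} (hb : 0 < b) (e : ℤ) : ex b e < 2 * b := by
  have h : e % (2 * (b : ℤ)) < 2 * (b : ℤ) := Int.emod_lt_of_pos _ (by positivity)
  rw [← ex_cast hb] at h
  exact_mod_cast h

theorem ex_add {b : ℕ} (hb : 0 < b) (e : ℤ) (k : ℕ) :
    ex b (e + k) = (ex b e + k) % (2 * b) := by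
  have h : ((ex b (e + k) : ℕ) : ℤ) = (((ex b e + k) % (2 * b) : ℕ) : ℤ) := by
    push_cast
    rw [ex_cast hb, ex_cast hb, Int.emod_add_emod]
  exact_mod_cast h

theorem ex_sub {b : ℕ} (hb : 0 < b) (e : ℤ) (k : ℕ) (hk : k ≤ 2 * b) :
    ex b (e - k) = (ex b e + (2 * b - k)) % (2 * b) := by
  have h1 : e - k = (e + ((2 * b - k : ℕ) : ℤ)) + (2 * (b : ℤ)) * (-1) := by
    rw [Nat.cast_sub hk]; push_cast; ring
  have h2 : ex b (e - k) = ex b (e + ((2 * b - k : ℕ) : ℤ)) := by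
    rw [h1]; unfold ex; rw [Int.add_mul_emod_self_left]
  rw [h2, ex_add hb]

theorem ex_periodic {b : ℕ} (e q : ℤ) : ex b (e + 2 * (b : ℤ) * q) = ex b e := by
  unfold ex; rw [Int.add_mul_emod_self_left]

theorem eh_lt {b : ℕ} (hb : 0 < b) (m : ℕ) : eh b m < 2 * b := ex_lt hb _
theorem eh'_lt {b : ℕ} (hb : 0 < b) (m : ℕ) : eh' b m < 2 * b := ex_lt hb _
theorem e1_lt {b : ℕ} (hb : 0 < b) (i : ℕ) : e1 b i < 2 * b := ex_lt hb _
theorem e2_lt {b : ℕ} (hb : 0 < b) (k d : ℕ) : e2 b k d < 2 * b := ex_lt hb _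
theorem e3_lt {b : ℕ} (hb : 0 < b) (j : ℕ) : e3 b j < 2 * b := ex_lt hb _

theorem half_succ (m : ℕ) : (m + 1) * (m + 1 + 1) / 2 = m * (m + 1) / 2 + (m + 1) := by
  have h : (m + 1) * (m + 1 + 1) = m * (m + 1) + 2 * (m + 1) := by ring
  rw [h, Nat.add_mul_div_left _ _ (by norm_num)]

/-! ### first kernel -/

theorem eh_zero (b : ℕ) : eh b 0 = 0 := by simp [eh, ex]

/-- `eh (m+1) = eh m - (m+1)` -/
theorem eh_succ {b : ℕ} (hb : 0 < b) (m : ℕ) (hm : m + 1 ≤ 2 * b) :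
    eh b (m + 1) = (eh b m + (2 * b - (m + 1))) % (2 * b) := by
  unfold eh
  rw [half_succ, ← ex_sub hb _ _ hm]
  congr 1
  push_cast
  ring

/-- the second half of the rows: `eh (2b+m+1) = eh (2b+m) - (m+1)` -/
theorem eh_succ' {b : ℕ} (hb : 0 < b) (m : ℕ) (hm : m + 1 ≤ 2 * b) :
    eh b (2 * b + m + 1) = (eh b (2 * b + m) + (2 * b - (m + 1))) % (2 * b) := by
  unfold eh
  rw [half_succ, ← ex_sub hb _ _ hm, ← ex_periodic _ (-1)]
  rw [← ex_periodic (-((((2 * b + m) * (2 * b + m + 1) / 2 : ℕ)) : ℤ) - ((m + 1 : ℕ) : ℤ)) (-2)]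
  conv_rhs => rw [← ex_periodic _ 0]
  congr 1
  push_cast
  ring

/-! ### second kernel -/

theorem eh'_zero (b : ℕ) : eh' b 0 = 0 := by simp [eh', ex]

theorem eh'_succ {b : ℕ} (hb : 0 < b) (m : ℕ) :
    eh' b (m + 1) = (eh' b m + (m + 1)) % (2 * b) := by
  unfold eh'
  rw [half_succ, ← ex_add hb]
  congr 1

theorem eh'_succ' {b : ℕ} (hb : 0 < b) (m : ℕ) :
    eh' b (2 * b + m + 1) = (eh' b (2 * b + m) + (m + 1)) % (2 * b) := by
  rw [eh'_succ hb]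
  have : eh' b (2 * b + m) + (2 * b + m + 1) = (eh' b (2 * b + m) + (m + 1)) + 2 * b := by ring
  rw [this, Nat.add_mod_right]

/-! ### first twiddle -/

theorem e1_zero (b : ℕ) : e1 b 0 = 0 := by simp [e1, ex]

theorem e1_succ {b : ℕ} (hb : 0 < b) (i : ℕ) :
    e1 b (i + 1) = (e1 b i + i) % (2 * b) := by
  unfold e1
  rw [← ex_add hb]
  congr 1
  have h : (i + 1) * (i + 1 - 1) / 2 = i * (i - 1) / 2 + i := by
    rcases i with _ | i
    · simp
    · have h2 : (i + 1 + 1) * (i + 1 + 1 - 1) = (i + 1) * (i + 1 - 1) + 2 * (i + 1) := by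
        simp only [Nat.add_sub_cancel]; ring
      rw [h2, Nat.add_mul_div_left _ _ (by norm_num)]
  rw [h]; push_cast; ring

/-! ### second twiddle -/

theorem e2_zero {b : ℕ} (hb : 0 < b) (k : ℕ) (hk : k < 2 * b) : e2 b k 0 = k := by
  have h := ex_add hb 0 k
  unfold e2
  simp only [Nat.zero_add, Nat.mul_one]
  rw [zero_add] at h
  rw [h, show ex b 0 = 0 by simp [ex], Nat.zero_add, Nat.mod_eq_of_lt hk]

theorem e2_succ {b : ℕ} (hb : 0 < b) (k d : ℕ) :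
    e2 b k (d + 1) = (e2 b k d + k) % (2 * b) := by
  unfold e2
  rw [← ex_add hb]
  congr 1

/-- after `2b` steps the exponent is back at `k` -/
theorem e2_period {b : ℕ} (hb : 0 < b) (k : ℕ) (hk : k < 2 * b) : e2 b k (2 * b) = k := by
  have h := ex_periodic (b := b) (k : ℤ) (k : ℤ)
  have h1 : e2 b k (2 * b) = ex b ((k : ℤ) + 2 * (b : ℤ) * k) := by
    unfold e2; congr 1; push_cast; ring
  rw [h1, h]
  have h2 := ex_add hb 0 k
  rw [zero_add] at h2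
  rw [h2, show ex b 0 = 0 by simp [ex], Nat.zero_add, Nat.mod_eq_of_lt hk]

/-! ### third twiddle -/

/-- initial value: `2b - log2 (2b)` (the logarithm `β+1` is at most `2b`) -/
theorem e3_zero {b : ℕ} (hb : 0 < b) : e3 b 0 = (2 * b - Nat.log 2 (2 * b)) % (2 * b) := by
  have hl : Nat.log 2 (2 * b) ≤ 2 * b := (Nat.log_lt_self 2 (by omega)).le
  have h := ex_sub hb 0 (Nat.log 2 (2 * b)) hl
  unfold e3
  simp only [Nat.zero_mul, Nat.zero_div, Nat.cast_zero, neg_zero]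
  rw [h, show ex b 0 = 0 by simp [ex], Nat.zero_add]

theorem log_le {b : ℕ} (hb : 0 < b) : Nat.log 2 (2 * b) ≤ 2 * b :=
  (Nat.log_lt_self 2 (by omega)).le

theorem e3_zero_of_pow (β : ℕ) : e3 (2 ^ β) 0 = 2 * 2 ^ β - (β + 1) := by
  rw [e3_zero (by positivity), log_two_two_mul, Nat.mod_eq_of_lt]
  have : 0 < 2 ^ β := by positivity
  omega

theorem e3_succ {b : ℕ} (hb : 0 < b) (j : ℕ) (hj : j + 1 ≤ 2 * b) :
    e3 b (j + 1) = (e3 b j + (2 * b - (j + 1))) % (2 * b) := by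
  unfold e3
  rw [half_succ, ← ex_sub hb _ _ hj]
  congr 1
  push_cast
  ring

end Vale.Agent.P338.E
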