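import Vale.Agent.P338.H373.Parse
import Vale.Agent.P338.H932.MachineM
import Vale.Agent.P338.H463.Num

/-!
# Stage 3: from a program for products of lists to a machine that multiplies
-/

set_option linter.unusedSectionVars false

namespace Vale.Agent.P338.H373

open Function (update)
open Vale.Agent.P338

variable {H : Type} [Finite H] [DecidableEq H]

/-- decoding of the output symbols -/
def decL {Z : Type} : Bool ⊕ Z → Bool := Sum.elim id fun _ => false

/-- parse, multiply, reverse -/
def mainM {A : Machine} (P : Prog (H ⊕ Sim.AReg A) (Bool ⊕ Sim.ASym A)) (X Y O : H) :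
    Prog (H ⊕ Sim.AReg A) (Bool ⊕ Sim.ASym A) :=
  .seq (parseP X O Y) (.seq P (.flip (.inl O) (.inl X)))

theorem mainM_runs {A : Machine} {P : Prog (H ⊕ Sim.AReg A) (Bool ⊕ Sim.ASym A)} {X Y O : H}
    (hXY : X ≠ Y) (hXO : X ≠ O) (hYO : Y ≠ O) {n c : ℕ} (z : Sim.ASym A) {x y : List Bool}
    (hy : y.length = n)
    (hP : LRuns P (update (update (fun _ => []) X x.reverse) Y y.reverse)
      (update (fun _ => []) O (lbits (2 * n) (val x * val y))) c) :
    ∃ s1, Runs (mainM P X Y O) (update (fun _ => []) (.inl X)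
        (y.reverse.map Sum.inl ++ (Sum.inr z) :: x.reverse.map Sum.inl)) s1 (c + 8 * n + 4) ∧
      s1 (.inl X) = (bin (2 * n) (val x * val y)).map Sum.inl := by
  have h1 := parse_runs (Y := Sim.AReg A) (Γ := Bool) hXO hXY hYO.symm z x.reverse y.reverse
  have hOX : (Sum.inl O : H ⊕ Sim.AReg A) ≠ Sum.inl X := by simpa using hXO.symm
  have h2 := Runs.flip hOX (liftStore (update (fun _ => []) O (lbits (2 * n) (val x * val y)))
    (fun _ : Sim.AReg A => ([] : List (Bool ⊕ Sim.ASym A))))
  refine ⟨_, (h1.seq (Runs.seq hP h2)).weaken ?_, ?_⟩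
  · simp only [liftStore, Function.update_self, List.length_map, List.length_reverse, hy]
    rw [_root_.Vale.Agent.P338.Num.lbits_length]
    omega
  · rw [Function.update_self]
    simp only [liftStore, Function.update_self, Function.update_of_ne hXO, List.map_nil,
      List.append_nil]
    rw [← List.map_reverse, ← Sim.bin_reverse, List.reverse_reverse]

/-- **A program for products gives a machine that multiplies.** -/
theorem machine_of_prog {A : Machine} (P : Prog (H ⊕ Sim.AReg A) (Bool ⊕ Sim.ASym A)) (X Y O : H)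
    (hXY : X ≠ Y) (hXO : X ≠ O) (hYO : Y ≠ O) (cost : ℕ → ℕ)
    (hP : ∀ n, 1 ≤ n → ∀ xl yl : List Bool, xl.length = n → yl.length = n →
      LRuns P (update (update (fun _ => []) X xl) Y yl)
        (update (fun _ => []) O (lbits (2 * n) (lval xl * lval yl))) (cost n)) :
    ∃ A2 : Machine, Multiplies A2 ∧ ∀ n, 1 ≤ n → mulTime A2 n ≤ 2 * (cost n + 12 * n + 6) := by
  let _ : Fintype (H ⊕ Sim.AReg A) := Fintype.ofFinite _
  have h := mulMachine_multiplies (mainM P X Y O) (.inl X) (.inl X) Sum.inl
    (Sum.inr (.cell .blank)) decL (fun b => rfl) (fun n => cost n + 8 * n + 4) (by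
      intro n hn x y hx hy
      have h1 := hP n hn x.reverse y.reverse (by rw [List.length_reverse, hx])
        (by rw [List.length_reverse, hy])
      have e1 : lval x.reverse = val x := by rw [← Sim.val_reverse, List.reverse_reverse]
      have e2 : lval y.reverse = val y := by rw [← Sim.val_reverse, List.reverse_reverse]
      rw [e1, e2] at h1
      exact mainM_runs hXY hXO hYO _ hy h1)
  exact ⟨_, h.1, fun n hn => (h.2 n hn).trans (by omega)⟩

/-- The same with the time bound of one splitting step. -/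
theorem half_of_prog {A : Machine} (hA : Multiplies A)
    (P : Prog (H ⊕ Sim.AReg A) (Bool ⊕ Sim.ASym A)) (X Y O : H)
    (hXY : X ≠ Y) (hXO : X ≠ O) (hYO : Y ≠ O) (cost : ℕ → ℕ) (K : ℕ)
    (hcost : ∀ n, 1 ≤ n → cost n ≤ K * mulTime A ((n + 1) / 2) + K * n)
    (hP : ∀ n, 1 ≤ n → ∀ xl yl : List Bool, xl.length = n → yl.length = n →
      LRuns P (update (update (fun _ => []) X xl) Y yl)
        (update (fun _ => []) O (lbits (2 * n) (lval xl * lval yl))) (cost n)) :
    ∃ A2 : Machine, Multiplies A2 ∧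
      ∃ K2 : ℕ, ∀ n, 1 ≤ n → mulTime A2 n ≤ K2 * mulTime A ((n + 1) / 2) := by
  obtain ⟨A2, h1, h2⟩ := machine_of_prog P X Y O hXY hXO hYO cost hP
  refine ⟨A2, h1, 6 * K + 60, fun n hn => ?_⟩
  have h3 := h2 n hn
  have h4 := hcost n hn
  have h5 := hA.le_mulTime ((n + 1) / 2)
  have h6 : n ≤ 2 * mulTime A ((n + 1) / 2) := by omega
  have h7 : K * n ≤ K * (2 * mulTime A ((n + 1) / 2)) := Nat.mul_le_mul_left _ h6
  have h8 : 1 ≤ mulTime A ((n + 1) / 2) := by omega
  nlinarith

end Vale.Agent.P338.H373
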