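import Vale.Agent.P338.H373.ExpsE
import Vale.Agent.P338.H763.Lib2
import Vale.Agent.P338.H666.Rename
import Vale.Agent.P338.Reg

/-!
# The kernel programs KER, KER2 and the filling program FILL
-/

set_option linter.unusedSectionVars false

namespace Vale.Agent.P338.H373

open Function (update)
open Vale.Agent.P338 E

/-- own registers of the kernel programs -/
inductive KReg : Type
  | K | HZ | A | B | out | q | q1 | C | tmp
  deriving DecidableEq

/-- a store of the kernel programs -/
def kst (K HZ A B out q q1 C tmp : List Bool) : Store KReg Bool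
  | .K => K
  | .HZ => HZ
  | .A => A
  | .B => B
  | .out => out
  | .q => q
  | .q1 => q1
  | .C => C
  | .tmp => tmp

/-- one row of the kernel, pushed on `tmp` -/
def krow : Prog KReg Bool :=
  .seq (.fill .A .q1 .tmp false) (.seq (.push .tmp true)
    (.seq (.fill .B .q1 .tmp false) (.fill .HZ .q1 .tmp false)))

/-- the kernel program; `rot` updates the exponent pair `(A, B)` -/
def ker (rot : Prog KReg Bool) : Prog KReg Bool :=
  .seq (.copy .K .q .B) (.seq (.forR .K .q (.seq krow rot)) (.seq (.forR .K .q (.seq krow rot))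
    (.seq (.clear .A) (.seq (.clear .B) (.flip .tmp .out)))))

theorem zer_append (m n : ℕ) : zer m ++ zer n = zer (m + n) :=
  List.replicate_append_replicate

theorem length_zer (n : ℕ) : (zer n).length = n := by simp [zer]

theorem reverse_zer (n : ℕ) : (zer n).reverse = zer n := by simp [zer]

theorem krow_runs (a c h : ℕ) (K out q C tmp : List Bool) :
    Runs krow (kst K (zer h) (zer a) (zer c) out q [] C tmp)
      (kst K (zer h) (zer a) (zer c) out q [] C (zer (c + h) ++ true :: (zer a ++ tmp)))
      (5 * (a + c + h) + 7) := by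
  have h1 := Runs.fill (s := kst K (zer h) (zer a) (zer c) out q [] C tmp) (r := KReg.A)
    (q := KReg.q1) (dst := KReg.tmp) (by decide) (by decide) (by decide) (a := false) (b := false)
    (n := a) rfl rfl
  have h2 := Runs.push (Γ := Bool) KReg.tmp true (kst K (zer h) (zer a) (zer c) out q [] C (zer a ++ tmp))
  have h3 := Runs.fill (s := kst K (zer h) (zer a) (zer c) out q [] C (true :: (zer a ++ tmp)))
    (r := KReg.B) (q := KReg.q1) (dst := KReg.tmp) (by decide) (by decide) (by decide)
    (a := false) (b := false) (n := c) rfl rfl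
  have h4 := Runs.fill (s := kst K (zer h) (zer a) (zer c) out q [] C
    (zer c ++ true :: (zer a ++ tmp))) (r := KReg.HZ) (q := KReg.q1) (dst := KReg.tmp)
    (by decide) (by decide) (by decide) (a := false) (b := false) (n := h) rfl rfl
  refine ((h1.conv (s' := kst K (zer h) (zer a) (zer c) out q [] C (zer a ++ tmp))
    (by funext r; cases r <;> rfl) le_rfl).seq
    ((h2.conv (s' := kst K (zer h) (zer a) (zer c) out q [] C (true :: (zer a ++ tmp)))
      (by funext r; cases r <;> rfl) le_rfl).seq
    ((h3.conv (s' := kst K (zer h) (zer a) (zer c) out q [] C (zer c ++ true :: (zer a ++ tmp)))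
      (by funext r; cases r <;> rfl) le_rfl).seq h4))).conv ?_ (by omega)
  rw [Nat.add_comm c h, ← zer_append]
  funext r
  cases r
  case tmp =>
    show zer h ++ (zer c ++ true :: (zer a ++ tmp)) = zer h ++ zer c ++ true :: (zer a ++ tmp)
    rw [List.append_assoc]
  all_goals rfl

/-- the list of the first `i` rows with exponents `e`, rows of `2b + 1 + h` bits -/
def krows (b h : ℕ) (e : ℕ → ℕ) (i : ℕ) : List Bool :=
  cat i fun m => zer (e m) ++ [true] ++ zer (2 * b - e m + h)

theorem cat_succ (n : ℕ) (f : ℕ → List Bool) : cat (n + 1) f = cat n f ++ f n := by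
  simp [cat, List.range_succ]

theorem krows_succ_reverse (b h : ℕ) (e : ℕ → ℕ) (i : ℕ) :
    (krows b h e (i + 1)).reverse =
      zer (2 * b - e i + h) ++ true :: (zer (e i) ++ (krows b h e i).reverse) := by
  unfold krows
  rw [cat_succ]
  simp [zer]

theorem length_krows (b h : ℕ) (e : ℕ → ℕ) (he : ∀ m, e m ≤ 2 * b) (i : ℕ) :
    (krows b h e i).length = i * (2 * b + 1 + h) := by
  induction i with
  | zero => simp [krows, cat]
  | succ i ih =>
    have h1 : (krows b h e (i + 1)).length = (krows b h e (i + 1)).reverse.length := by simp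
    have h2 := he i
    rw [h1, krows_succ_reverse]
    simp only [List.length_append, List.length_cons, length_zer, List.length_reverse, ih]
    rw [add_mul]
    omega

/-- hypothesis on `rot`: from exponent `e i` to exponent `e (i+1)` -/
def RotSpec (rot : Prog KReg Bool) (b : ℕ) (e : ℕ → ℕ) : Prop :=
  ∀ i < 2 * b, ∀ (K HZ out tmp : List Bool),
    Runs rot (kst K HZ (zer (e i)) (zer (2 * b - e i)) out (zer (i + 1)) [] [] tmp)
      (kst K HZ (zer (e (i + 1))) (zer (2 * b - e (i + 1))) out (zer (i + 1)) [] [] tmp)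
      (20 * b + 20)

theorem krow_loop (rot : Prog KReg Bool) (b h : ℕ) (e : ℕ → ℕ) (he : ∀ m, e m < 2 * b)
    (hrot : RotSpec rot b e) (out tmp : List Bool) :
    Runs (.forR .K .q (.seq krow rot))
      (kst (zer (2 * b)) (zer h) (zer (e 0)) (zer (2 * b - e 0)) out [] [] [] tmp)
      (kst (zer (2 * b)) (zer h) (zer (e (2 * b))) (zer (2 * b - e (2 * b))) out [] [] []
        ((krows b h e (2 * b)).reverse ++ tmp))
      (2 * b * (30 * b + 5 * h + 31) + 2) := by
  have hb : ∀ i < 2 * b,
      Runs (.seq krow rot)
        (update (update (kst (zer (2 * b)) (zer h) (zer (e i)) (zer (2 * b - e i)) out [] [] []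
          ((krows b h e i).reverse ++ tmp)) .K (List.replicate (2 * b - 1 - i) false)) .q
          (List.replicate (i + 1) false))
        (update (update (kst (zer (2 * b)) (zer h) (zer (e (i + 1))) (zer (2 * b - e (i + 1))) out
          [] [] [] ((krows b h e (i + 1)).reverse ++ tmp)) .K
          (List.replicate (2 * b - 1 - i) false)) .q (List.replicate (i + 1) false))
        (30 * b + 5 * h + 27) := by
    intro i hi
    have h1 := krow_runs (e i) (2 * b - e i) h (zer (2 * b - 1 - i)) out (zer (i + 1)) []
      ((krows b h e i).reverse ++ tmp)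
    have h2 := hrot i hi (zer (2 * b - 1 - i)) (zer h) out
      (zer (2 * b - e i + h) ++ true :: (zer (e i) ++ ((krows b h e i).reverse ++ tmp)))
    have h3 := h1.seq h2
    have e1 : update (update (kst (zer (2 * b)) (zer h) (zer (e i)) (zer (2 * b - e i)) out [] [] []
          ((krows b h e i).reverse ++ tmp)) .K (List.replicate (2 * b - 1 - i) false)) .q
          (List.replicate (i + 1) false) = kst (zer (2 * b - 1 - i)) (zer h) (zer (e i))
            (zer (2 * b - e i)) out (zer (i + 1)) [] [] ((krows b h e i).reverse ++ tmp) := by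
      funext r; cases r <;> rfl
    rw [e1]
    refine h3.conv ?_ ?_
    · rw [krows_succ_reverse]
      funext r; cases r <;> simp [kst, zer]
    · have := he i
      omega
  have h0 := Runs.forR (p := .seq krow rot) (r := KReg.K) (q := KReg.q) (by decide) (a := false)
    (n := 2 * b)
    (fun i => kst (zer (2 * b)) (zer h) (zer (e i)) (zer (2 * b - e i)) out [] [] []
      ((krows b h e i).reverse ++ tmp)) (30 * b + 5 * h + 27) rfl rfl hb
  have e0 : kst (zer (2 * b)) (zer h) (zer (e 0)) (zer (2 * b - e 0)) out [] [] []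
      ((krows b h e 0).reverse ++ tmp) =
      kst (zer (2 * b)) (zer h) (zer (e 0)) (zer (2 * b - e 0)) out [] [] [] tmp := by
    simp [krows, cat]
  rw [← e0]
  refine h0.conv ?_ ?_
  · funext r; cases r <;> rfl
  · ring_nf; omega

theorem krows_add (b h : ℕ) (e : ℕ → ℕ) (i j : ℕ) :
    krows b h e (i + j) = krows b h e i ++ krows b h (fun m => e (i + m)) j := by
  induction j with
  | zero => simp [krows, cat]
  | succ j ih =>
    have h1 : krows b h e (i + j + 1) = krows b h e (i + j) ++
      (zer (e (i + j)) ++ [true] ++ zer (2 * b - e (i + j) + h)) := cat_succ _ _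
    have h2 : krows b h (fun m => e (i + m)) (j + 1) = krows b h (fun m => e (i + m)) j ++
      (zer (e (i + j)) ++ [true] ++ zer (2 * b - e (i + j) + h)) := cat_succ _ _
    rw [← Nat.add_assoc, h1, ih, h2, List.append_assoc]

theorem ker_runs (rot : Prog KReg Bool) (b h : ℕ) (e : ℕ → ℕ) (he : ∀ m, e m < 2 * b)
    (he0 : e 0 = 0) (hrot : RotSpec rot b e) (hrot' : RotSpec rot b (fun i => e (2 * b + i)))
    (out : List Bool) :
    Runs (ker rot) (kst (zer (2 * b)) (zer h) [] [] out [] [] [] [])
      (kst (zer (2 * b)) (zer h) [] [] (krows b h e (4 * b) ++ out) [] [] [] [])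
      (200 * b * (2 * b + 1 + h)) := by
  have hb : 0 < b := by have := he 0; omega
  have h1 := Runs.copy (s := kst (zer (2 * b)) (zer h) [] [] out [] [] [] []) (r := KReg.K)
    (q := KReg.q) (dst := KReg.B) (by decide) (by decide) (by decide) rfl
  have h2 := krow_loop rot b h e he hrot out []
  have h3 := krow_loop rot b h (fun i => e (2 * b + i)) (fun m => he _) hrot' out
    ((krows b h e (2 * b)).reverse ++ [])
  have h4 := Runs.clear (Γ := Bool) KReg.A (kst (zer (2 * b)) (zer h) (zer (e (2 * b + 2 * b)))
    (zer (2 * b - e (2 * b + 2 * b))) out [] [] []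
      ((krows b h (fun i => e (2 * b + i)) (2 * b)).reverse ++ ((krows b h e (2 * b)).reverse ++ [])))
  have h5 := Runs.clear (Γ := Bool) KReg.B (kst (zer (2 * b)) (zer h) []
    (zer (2 * b - e (2 * b + 2 * b))) out [] [] []
      ((krows b h (fun i => e (2 * b + i)) (2 * b)).reverse ++ ((krows b h e (2 * b)).reverse ++ [])))
  have h6 := Runs.flip (Γ := Bool) (r := KReg.tmp) (q := KReg.out) (by decide)
    (kst (zer (2 * b)) (zer h) [] [] out [] [] []
      ((krows b h (fun i => e (2 * b + i)) (2 * b)).reverse ++ ((krows b h e (2 * b)).reverse ++ [])))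
  have e1 : update (kst (zer (2 * b)) (zer h) [] [] out [] [] [] []) KReg.B
      (kst (zer (2 * b)) (zer h) [] [] out [] [] [] [] KReg.K ++
        kst (zer (2 * b)) (zer h) [] [] out [] [] [] [] KReg.B) =
      kst (zer (2 * b)) (zer h) (zer (e 0)) (zer (2 * b - e 0)) out [] [] [] [] := by
    rw [he0]
    funext r; cases r <;> simp [kst, zer]
  rw [e1] at h1
  have hl : ∀ (x : List Bool), kst (zer (2 * b)) (zer h) (zer (e (2 * b)))
      (zer (2 * b - e (2 * b))) out [] [] [] x = kst (zer (2 * b)) (zer h) (zer (e (2 * b + 0)))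
      (zer (2 * b - e (2 * b + 0))) out [] [] [] x := fun x => rfl
  rw [hl] at h2
  refine (h1.seq (h2.seq (h3.seq ((h4.conv (s' := kst (zer (2 * b)) (zer h) []
    (zer (2 * b - e (2 * b + 2 * b))) out [] [] []
      ((krows b h (fun i => e (2 * b + i)) (2 * b)).reverse ++ ((krows b h e (2 * b)).reverse ++ [])))
      (by funext r; cases r <;> rfl) le_rfl).seq ((h5.conv
      (s' := (kst (zer (2 * b)) (zer h) [] [] out [] [] []
      ((krows b h (fun i => e (2 * b + i)) (2 * b)).reverse ++ ((krows b h e (2 * b)).reverse ++ []))))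
      (by funext r; cases r <;> rfl) le_rfl).seq h6))))).conv ?_ ?_
  · have e4 : 4 * b = 2 * b + 2 * b := by ring
    rw [e4, krows_add]
    funext r; cases r <;> simp [kst]
  · have l1 := length_krows b h e (fun m => (he m).le) (2 * b)
    have l2 := length_krows b h (fun i => e (2 * b + i)) (fun m => (he _).le) (2 * b)
    have l3 := he (2 * b + 2 * b)
    simp only [kst, length_zer, List.length_append, List.length_reverse, List.length_nil, l1, l2]
    generalize e (2 * b + 2 * b) = E at l3 ⊢
    obtain ⟨c, hc⟩ : ∃ c, 2 * b = E + c := ⟨2 * b - E, by omega⟩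
    have h7 : 2 * b - E = c := by omega
    rw [h7]
    have h8 := Nat.zero_le (b * h)
    have h9 := Nat.zero_le (b * b)
    linarith

/-! ### the two rotations -/

theorem rotSub_spec (b : ℕ) (e : ℕ → ℕ) (he : ∀ m, e m < 2 * b)
    (hs : ∀ m, m + 1 ≤ 2 * b → e (m + 1) = (e m + (2 * b - (m + 1))) % (2 * b)) :
    RotSpec (.rotSub .A .B .C .q .q1) b e := by
  intro i hi K HZ out tmp
  have h := Runs.rotSub (s := kst K HZ (zer (e i)) (zer (2 * b - e i)) out (zer (i + 1)) [] [] tmp)
    (A := KReg.A) (B := KReg.B) (C := KReg.C) (r := KReg.q) (q := KReg.q1) (by decide) (by decide)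
    (by decide) (by decide) (by decide) (by decide) (by decide) (by decide) (by decide) (by decide)
    (t := false) (n := 2 * b) (a := e i) (k := i + 1) (he i) (by omega) rfl rfl rfl rfl rfl
  refine h.conv ?_ (by omega)
  rw [hs i (by omega)]
  funext r; cases r <;> rfl

theorem rotAdd_spec (b : ℕ) (e : ℕ → ℕ) (he : ∀ m, e m < 2 * b)
    (hs : ∀ m, m + 1 ≤ 2 * b → e (m + 1) = (e m + (m + 1)) % (2 * b)) :
    RotSpec (.rotAdd .A .B .C .q .q1) b e := by
  intro i hi K HZ out tmp
  have h := Runs.rotAdd (s := kst K HZ (zer (e i)) (zer (2 * b - e i)) out (zer (i + 1)) [] [] tmp)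
    (A := KReg.A) (B := KReg.B) (C := KReg.C) (r := KReg.q) (q := KReg.q1) (by decide) (by decide)
    (by decide) (by decide) (by decide) (by decide) (by decide) (by decide) (by decide) (by decide)
    (t := false) (n := 2 * b) (a := e i) (k := i + 1) (he i) (by omega) rfl rfl rfl rfl rfl
  refine h.conv ?_ (by omega)
  rw [hs i (by omega)]
  funext r; cases r <;> rfl

/-! ### the kernels as lists -/

theorem cat_congr {n : ℕ} {f g : ℕ → List Bool} (h : ∀ i < n, f i = g i) : cat n f = cat n g := by
  induction n with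
  | zero => rfl
  | succ n ih => rw [cat_succ, cat_succ, ih fun i hi => h i (by omega), h n (by omega)]

theorem kernel_eq_krows {n b : ℕ} (hn : 0 < n) (e : ℕ → ℕ) (he : ∀ m, e m < 2 * b) :
    kernel n b e = krows b (E.rowW n b - 2 * b - 1) e (4 * b) := by
  have hb : 0 < b := by have := he 0; omega
  have h1 : 13 * b ≤ E.rowW n b := by unfold E.rowW; nlinarith
  unfold kernel krows
  refine cat_congr fun m _ => ?_
  have := he m
  rw [show E.rowW n b - 1 - e m = 2 * b - e m + (E.rowW n b - 2 * b - 1) by omega]

/-! ### the programs over `Reg` -/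

/-- placement of the registers -/
def kmap : KReg → Reg
  | .K => .rK
  | .HZ => .rHZ
  | .A => .aA
  | .B => .aB
  | .out => .cy
  | .q => .t0
  | .q1 => .t1
  | .C => .t2
  | .tmp => .t3

theorem kmap_injective : Function.Injective kmap := by
  intro a b h
  cases a <;> cases b <;> first | rfl | (exact absurd h (by decide))

/-- KER: `cy := kernel n b (eh b)` -/
noncomputable def KER : Prog Reg Bool := (ker (.rotSub .A .B .C .q .q1)).ren kmap

/-- KER2: `cy := kernel n b (eh' b)` -/
noncomputable def KER2 : Prog Reg Bool := (ker (.rotAdd .A .B .C .q .q1)).ren kmap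

theorem ker_ren (rot : Prog KReg Bool) (n b : ℕ) (hn : 0 < n) (e : ℕ → ℕ)
    (he : ∀ m, e m < 2 * b) (he0 : e 0 = 0) (hrot : RotSpec rot b e)
    (hrot' : RotSpec rot b (fun i => e (2 * b + i)))
    (s : Store Reg Bool) (hK : s .rK = zer (2 * b)) (hHZ : s .rHZ = zer (E.rowW n b - 2 * b - 1))
    (hA : s .aA = []) (hB : s .aB = []) (h0 : s .t0 = []) (h1 : s .t1 = []) (h2 : s .t2 = [])
    (h3 : s .t3 = []) :
    Runs ((ker rot).ren kmap) s (update s .cy (kernel n b e ++ s .cy)) (200 * b * E.rowW n b) := by
  have hb : 0 < b := by have := he 0; omega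
  have hw : 13 * b ≤ E.rowW n b := by unfold E.rowW; nlinarith
  have h := ker_runs rot b (E.rowW n b - 2 * b - 1) e he he0 hrot hrot' (s .cy)
  have h4 := Runs.ren' kmap_injective h s (by
    intro l
    cases l
    all_goals first | exact hK | exact hHZ | exact hA | exact hB | exact h0 | exact h1 | exact h2 | exact h3 | rfl)
  rw [kernel_eq_krows hn e he]
  refine h4.conv ?_ (by rw [show 2 * b + 1 + (E.rowW n b - 2 * b - 1) = E.rowW n b by omega])
  funext r
  by_cases hr : ∃ l, kmap l = r
  · obtain ⟨l, rfl⟩ := hr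
    rw [put_apply kmap_injective]
    cases l
    all_goals first | exact hK.symm | exact hHZ.symm | exact hA.symm | exact hB.symm | exact h0.symm | exact h1.symm | exact h2.symm | exact h3.symm | rfl
  · rw [put_of_not _ _ hr, Function.update_of_ne]
    rintro rfl
    exact hr ⟨.out, rfl⟩

theorem KER_runs (n b : ℕ) (hn : 0 < n) (hb : 0 < b) (s : Store Reg Bool)
    (hK : s .rK = zer (2 * b)) (hHZ : s .rHZ = zer (E.rowW n b - 2 * b - 1))
    (hA : s .aA = []) (hB : s .aB = []) (h0 : s .t0 = []) (h1 : s .t1 = []) (h2 : s .t2 = [])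
    (h3 : s .t3 = []) :
    Runs KER s (update s .cy (kernel n b (eh b) ++ s .cy)) (200 * b * E.rowW n b) :=
  ker_ren _ n b hn (eh b) (eh_lt hb) (eh_zero b)
    (rotSub_spec b (eh b) (eh_lt hb) (fun m hm => eh_succ hb m hm))
    (rotSub_spec b _ (fun _ => eh_lt hb _) (fun m hm => eh_succ' hb m hm))
    s hK hHZ hA hB h0 h1 h2 h3

theorem KER2_runs (n b : ℕ) (hn : 0 < n) (hb : 0 < b) (s : Store Reg Bool)
    (hK : s .rK = zer (2 * b)) (hHZ : s .rHZ = zer (E.rowW n b - 2 * b - 1))
    (hA : s .aA = []) (hB : s .aB = []) (h0 : s .t0 = []) (h1 : s .t1 = []) (h2 : s .t2 = [])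
    (h3 : s .t3 = []) :
    Runs KER2 s (update s .cy (kernel n b (eh' b) ++ s .cy)) (200 * b * E.rowW n b) :=
  ker_ren _ n b hn (eh' b) (eh'_lt hb) (eh'_zero b)
    (rotAdd_spec b (eh' b) (eh'_lt hb) (fun m _ => eh'_succ hb m))
    (rotAdd_spec b _ (fun _ => eh'_lt hb _) (fun m _ => eh'_succ' hb m))
    s hK hHZ hA hB h0 h1 h2 h3

/-! ### FILL -/

/-- FILL: fill the stack `r` with zeros at the BOTTOM up to the height of `rM` -/
def FILL (r : Reg) : Prog Reg Bool :=
  .seq (.flip r .t0) (.seq (.padTo .t0 .rM .t1 .t2 false) (.flip .t0 r))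

theorem FILL_runs (r : Reg) (hr : r = .cx ∨ r = .cy) (m : ℕ) (s : Store Reg Bool)
    (hM : s .rM = zer m) (h0 : s .t0 = []) (h1 : s .t1 = []) (h2 : s .t2 = [])
    (hl : (s r).length ≤ m) :
    Runs (FILL r) s (update s r (fillTo m (s r))) (16 * m + 14) := by
  have hr0 : r ≠ .t0 := by rcases hr with rfl | rfl <;> decide
  have hr1 : r ≠ .t1 := by rcases hr with rfl | rfl <;> decide
  have hr2 : r ≠ .t2 := by rcases hr with rfl | rfl <;> decide
  have hrM : r ≠ .rM := by rcases hr with rfl | rfl <;> decide
  have k1 := Runs.flip hr0 s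
  have k2 := Runs.padTo (s := update (update s r []) .t0 ((s r).reverse ++ s .t0)) (dst := Reg.t0)
    (N1 := Reg.rM) (N2 := Reg.t1) (tmp := Reg.t2) (by decide) (by decide) (by decide) (by decide)
    (by decide) (by decide) (t := false) (b := false) (m := m)
    (by rw [Function.update_of_ne (by decide), Function.update_of_ne hrM.symm, hM]; rfl)
    (by rw [Function.update_of_ne (by decide), Function.update_of_ne hr1.symm, h1])
    (by rw [Function.update_of_ne (by decide), Function.update_of_ne hr2.symm, h2])
    (by rw [Function.update_self, h0, List.append_nil, List.length_reverse]; exact hl)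
  have k3 := Runs.flip hr0.symm (update (update (update s r []) .t0 ((s r).reverse ++ s .t0)) .t0
    (List.replicate (m - (update (update s r []) .t0 ((s r).reverse ++ s .t0) .t0).length) false ++
      (update (update s r []) .t0 ((s r).reverse ++ s .t0) .t0)))
  refine (k1.seq (k2.seq k3)).conv ?_ ?_
  · funext x
    simp only [Function.update_self, h0, List.append_nil, List.length_reverse]
    by_cases hx : x = r
    · subst hx
      simp [fillTo, zer, hr0]
    · rw [Function.update_of_ne hx, Function.update_of_ne hx]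
      by_cases hx0 : x = .t0
      · subst hx0; rw [Function.update_self, h0]
      · rw [Function.update_of_ne hx0, Function.update_of_ne hx0, Function.update_of_ne hx0,
          Function.update_of_ne hx]
  · simp only [Function.update_self, h0, List.append_nil, List.length_reverse,
      List.length_append, List.length_replicate]
    omega

end Vale.Agent.P338.H373
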