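import Vale.Agent.P338.H373.Kernel
import Vale.Agent.P338.H931.Parts

/-!
# KER1, KER2, FILLx, FILLy in the form of the structure `Parts`
-/

namespace Vale.Agent.P338.H373

open Function (update)
open Vale.Agent.P338

theorem ker_cost {mu n Gr m : ℕ} (hn : n = 2 * 2 ^ mu * 2 ^ mu * Gr) (hG : 0 < Gr)
    (hm : n * n ≤ m) : 200 * 2 ^ mu * E.rowW n (2 ^ mu) ≤ 1300 * m := by
  have h1 : 2 * 2 ^ mu * 2 ^ mu ≤ n := by
    rw [hn]; exact Nat.le_mul_of_pos_right _ hG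
  have h2 : n * (2 * 2 ^ mu * 2 ^ mu) ≤ n * n := Nat.mul_le_mul_left _ h1
  unfold E.rowW
  calc 200 * 2 ^ mu * (n * (13 * 2 ^ mu)) = 1300 * (n * (2 * 2 ^ mu * 2 ^ mu)) := by ring
    _ ≤ 1300 * m := Nat.mul_le_mul_left _ (h2.trans hm)

theorem KER_part (s : Store Reg Bool) (mu n Gr m : ℕ) (hn : n = 2 * 2 ^ mu * 2 ^ mu * Gr)
    (hG : 0 < Gr) (hm : n * n ≤ m) (hT : TmpClean s) (hR : Rul s n (2 ^ mu)) (hy : s .cy = []) :
    Runs KER s (update s .cy (E.kernel n (2 ^ mu) (E.eh (2 ^ mu)))) (1300 * m) := by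
  have hb : 0 < 2 ^ mu := Nat.two_pow_pos mu
  have hn0 : 0 < n := by rw [hn]; positivity
  have h := KER_runs n (2 ^ mu) hn0 hb s hR.rK hR.rHZ (hT .aA rfl) (hT .aB rfl) (hT .t0 rfl)
    (hT .t1 rfl) (hT .t2 rfl) (hT .t3 rfl)
  rw [hy, List.append_nil] at h
  exact h.weaken (ker_cost hn hG hm)

theorem KER2_part (s : Store Reg Bool) (mu n Gr m : ℕ) (hn : n = 2 * 2 ^ mu * 2 ^ mu * Gr)
    (hG : 0 < Gr) (hm : n * n ≤ m) (hT : TmpClean s) (hR : Rul s n (2 ^ mu)) (hy : s .cy = []) :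
    Runs KER2 s (update s .cy (E.kernel n (2 ^ mu) (E.eh' (2 ^ mu)))) (1300 * m) := by
  have hb : 0 < 2 ^ mu := Nat.two_pow_pos mu
  have hn0 : 0 < n := by rw [hn]; positivity
  have h := KER2_runs n (2 ^ mu) hn0 hb s hR.rK hR.rHZ (hT .aA rfl) (hT .aB rfl) (hT .t0 rfl)
    (hT .t1 rfl) (hT .t2 rfl) (hT .t3 rfl)
  rw [hy, List.append_nil] at h
  exact h.weaken (ker_cost hn hG hm)

theorem FILLx_part (s : Store Reg Bool) (m : ℕ) (hm : 1 ≤ m) (hT : TmpClean s)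
    (hM : s .rM = zer m) (hl : (s .cx).length ≤ m) :
    Runs (FILL .cx) s (update s .cx (fillTo m (s .cx))) (1300 * m) :=
  (FILL_runs .cx (Or.inl rfl) m s hM (hT .t0 rfl) (hT .t1 rfl) (hT .t2 rfl) hl).weaken (by omega)

theorem FILLy_part (s : Store Reg Bool) (m : ℕ) (hm : 1 ≤ m) (hT : TmpClean s)
    (hM : s .rM = zer m) (hl : (s .cy).length ≤ m) :
    Runs (FILL .cy) s (update s .cy (fillTo m (s .cy))) (1300 * m) :=
  (FILL_runs .cy (Or.inr rfl) m s hM (hT .t0 rfl) (hT .t1 rfl) (hT .t2 rfl) hl).weaken (by omega)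

end Vale.Agent.P338.H373
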