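import Vale.Agent.P338.H763.LiftLib

/-!
# Stage 3: parsing of the input stack `y # x`
-/

set_option linter.unusedSectionVars false

namespace Vale.Agent.P338.H373

open Function (update)
open Vale.Agent.P338

variable {R Y Γ Z : Type} [DecidableEq R] [DecidableEq Y]

/-- is this a base symbol? -/
def isL : Option (Γ ⊕ Z) → Bool
  | some (Sum.inl _) => true
  | _ => false

/-- `I = ys # xs` (top first) to `I = xs`, `Yr = ys` -/
def parseP (I T Yr : R) : Prog (R ⊕ Y) (Γ ⊕ Z) :=
  .seq (.loop (fun t => isL (t (.inl I))) (.mv (.inl I) (.inl T)))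
    (.seq (.pop (.inl I)) (.flip (.inl T) (.inl Yr)))

theorem parseLoop_runs {I T : R} (hIT : I ≠ T) (z : Z) (xs ys : List Γ) (l : List (Γ ⊕ Z)) :
    Runs (.loop (fun t => isL (t (.inl I))) (.mv (.inl I) (.inl T)) : Prog (R ⊕ Y) (Γ ⊕ Z))
      (update (update (fun _ => []) (.inl I)
        (ys.map .inl ++ (.inr z : Γ ⊕ Z) :: xs.map .inl)) (.inl T) l)
      (update (update (fun _ => []) (.inl I)
        ((.inr z : Γ ⊕ Z) :: xs.map .inl)) (.inl T) ((ys.map .inl).reverse ++ l))
      (2 * ys.length + 1) := by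
  have hIT' : (Sum.inl I : R ⊕ Y) ≠ Sum.inl T := by simpa using hIT
  induction ys generalizing l with
  | nil =>
    refine (Runs.loop_stop ?_).conv ?_ (by simp)
    · simp [Store.tops, Function.update_of_ne hIT', isL]
    · simp
  | cons a ys ih =>
    have h1 : (update (update (fun _ => []) (.inl I)
        ((a :: ys).map .inl ++ (.inr z : Γ ⊕ Z) :: xs.map .inl)) (.inl T) l :
          Store (R ⊕ Y) (Γ ⊕ Z)) (.inl I) =
        .inl a :: (ys.map .inl ++ (.inr z : Γ ⊕ Z) :: xs.map .inl) := by
      rw [Function.update_of_ne hIT', Function.update_self]; rfl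
    have h2 := Runs.mv_cons hIT' h1
    have h3 := ih (.inl a :: l)
    refine (Runs.loop_step (c₁ := 1) (c₂ := 2 * ys.length + 1) ?_ (h2.conv ?_ le_rfl) h3).conv
      ?_ ?_
    · simp [Store.tops, Function.update_of_ne hIT', isL]
    · funext x
      simp only [Function.update_apply]
      split_ifs <;> simp_all
    · simp
    · simp only [List.length_cons]; omega

theorem parse_runs {I T Yr : R} (hIT : I ≠ T) (hIY : I ≠ Yr) (hTY : T ≠ Yr) (z : Z)
    (xs ys : List Γ) :
    Runs (parseP I T Yr : Prog (R ⊕ Y) (Γ ⊕ Z))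
      (update (fun _ => []) (.inl I) (ys.map .inl ++ (.inr z : Γ ⊕ Z) :: xs.map .inl))
      (liftStore (update (update (fun _ => []) I xs) Yr ys) fun _ => [])
      (4 * ys.length + 3) := by
  have hIT' : (Sum.inl I : R ⊕ Y) ≠ Sum.inl T := by simpa using hIT
  have hTY' : (Sum.inl T : R ⊕ Y) ≠ Sum.inl Yr := by simpa using hTY
  have hIY' : (Sum.inl I : R ⊕ Y) ≠ Sum.inl Yr := by simpa using hIY
  have h1 := parseLoop_runs (Y := Y) hIT z xs ys []
  have e1 : (update (update (fun _ => []) (.inl I)
        (ys.map .inl ++ (.inr z : Γ ⊕ Z) :: xs.map .inl)) (.inl T) [] :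
          Store (R ⊕ Y) (Γ ⊕ Z)) =
        update (fun _ => []) (.inl I) (ys.map .inl ++ (.inr z : Γ ⊕ Z) :: xs.map .inl) := by
    funext x
    simp only [Function.update_apply]
    split_ifs <;> simp_all
  rw [e1] at h1
  have h2 := Runs.pop (Sum.inl I) (update (update (fun _ => []) (.inl I)
        ((.inr z : Γ ⊕ Z) :: xs.map .inl)) (.inl T) ((ys.map .inl).reverse ++ []) :
          Store (R ⊕ Y) (Γ ⊕ Z))
  have e2 : update (update (update (fun _ => []) (.inl I)
        ((.inr z : Γ ⊕ Z) :: xs.map .inl)) (.inl T) ((ys.map .inl).reverse ++ []) :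
          Store (R ⊕ Y) (Γ ⊕ Z)) (.inl I) ((update (update (fun _ => []) (.inl I)
        ((.inr z : Γ ⊕ Z) :: xs.map .inl)) (.inl T) ((ys.map .inl).reverse ++ []) :
          Store (R ⊕ Y) (Γ ⊕ Z)) (.inl I)).tail = update (update (fun _ => []) (.inl I)
        (xs.map .inl)) (.inl T) ((ys.map .inl).reverse) := by
    rw [Function.update_of_ne hIT', Function.update_self]
    funext x
    simp only [Function.update_apply]
    split_ifs <;> simp_all
  rw [e2] at h2
  have h3 := Runs.flip hTY' (update (update (fun _ => []) (.inl I)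
        (xs.map .inl)) (.inl T) ((ys.map .inl).reverse) : Store (R ⊕ Y) (Γ ⊕ Z))
  refine (h1.seq (h2.seq h3)).conv ?_ ?_
  · funext x
    rcases x with x | x
    · simp only [Function.update_apply, liftStore, Sum.inl.injEq]
      by_cases hx1 : x = Yr
      · subst hx1
        simp [hIY.symm, hTY.symm]
      · by_cases hx2 : x = T
        · subst hx2
          simp [hx1, hIT.symm]
        · by_cases hx3 : x = I
          · subst hx3; simp [hx1, hx2]
          · simp [hx1, hx2, hx3]
    · simp [liftStore]
  · rw [Function.update_self]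
    simp only [List.length_reverse, List.length_map]
    omega

end Vale.Agent.P338.H373
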