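import Vale.Agent.P338.H930.ChirpD

namespace Vale.Agent.P338.D

/-- the inverse of the root: `pwm p om (-1) = om^(p-2) % p` -/
theorem pwm_neg_one {p om : ℕ} (hp : 2 ≤ p) : pwm p om (-1) = om ^ (p - 2) % p := by
  obtain ⟨q, rfl⟩ : ∃ q, p = q + 2 := ⟨p - 2, by omega⟩
  unfold pwm
  have h : ((-1 : ℤ) % (((q + 2 : ℕ) : ℤ) - 1)).toNat = q := by
    have h1 : (((q + 2 : ℕ) : ℤ) - 1) = ((q + 1 : ℕ) : ℤ) := by push_cast; ring
    rw [h1, Int.neg_emod_eq_sub_emod]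
    have h2 : (((q + 1 : ℕ) : ℤ) - 1) = ((q : ℕ) : ℤ) := by push_cast; ring
    rw [h2, Int.emod_eq_of_lt (by positivity) (by push_cast; omega), Int.toNat_natCast]
  rw [h, Nat.add_sub_cancel]

end Vale.Agent.P338.D
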