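import Vale.Agent.P338.H930.ChirpD

/-!
# Stage 2: the tables of variant D' as sequences generated by multiplications modulo `p`

`tab p r y g i` is the pair after `i` steps `(y, g) ↦ (y*g % p, g*r % p)` from `(y, g)`.
-/

namespace Vale.Agent.P338.D

/-- one step of the table generator -/
def tabStep (p r : ℕ) (z : ℕ × ℕ) : ℕ × ℕ := (z.1 * z.2 % p, z.2 * r % p)

/-- the table generator -/
def tab (p r y g : ℕ) : ℕ → ℕ × ℕ
  | 0 => (y, g)
  | i + 1 => tabStep p r (tab p r y g i)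

theorem tab_succ (p r y g i : ℕ) :
    tab p r y g (i + 1) = ((tab p r y g i).1 * (tab p r y g i).2 % p, (tab p r y g i).2 * r % p) :=
  rfl

theorem tab_lt {p r y g : ℕ} (hp : 0 < p) (hy : y < p) (hg : g < p) (i : ℕ) :
    (tab p r y g i).1 < p ∧ (tab p r y g i).2 < p := by
  induction i with
  | zero => exact ⟨hy, hg⟩
  | succ i _ => exact ⟨Nat.mod_lt _ hp, Nat.mod_lt _ hp⟩

section

variable {p : ℕ} [hp : Fact p.Prime] {om : ℕ} {g : (ZMod p)ˣ}

theorem eq_of_cast {a c : ℕ} (ha : a < p) (hc : c < p) (h : (a : ZMod p) = (c : ZMod p)) :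
    a = c := by
  rw [ZMod.natCast_eq_natCast_iff] at h
  exact Nat.ModEq.eq_of_lt_of_lt h ha hc

theorem pwm_add (hg : (g : ZMod p) = (om : ZMod p)) (a c : ℤ) :
    pwm p om (a + c) = pwm p om a * pwm p om c % p := by
  have hp0 : 0 < p := hp.out.pos
  refine eq_of_cast (pwm_lt hp0 _) (Nat.mod_lt _ hp0) ?_
  rw [ZMod.natCast_mod, Nat.cast_mul, cast_pwm om g hg, cast_pwm om g hg, cast_pwm om g hg,
    zpow_add, Units.val_mul]

theorem pwm_add_one (hg : (g : ZMod p) = (om : ZMod p)) (a : ℤ) :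
    pwm p om (a + 1) = pwm p om a * om % p := by
  have hp0 : 0 < p := hp.out.pos
  refine eq_of_cast (pwm_lt hp0 _) (Nat.mod_lt _ hp0) ?_
  rw [ZMod.natCast_mod, Nat.cast_mul, cast_pwm om g hg, cast_pwm om g hg,
    zpow_add, Units.val_mul, zpow_one, hg]

theorem pwm_zero (_ : (g : ZMod p) = (om : ZMod p)) : pwm p om 0 = 1 := by
  have := hp.out.two_le
  unfold pwm
  simp [Nat.mod_eq_of_lt this]

theorem pwm_one (hg : (g : ZMod p) = (om : ZMod p)) (hom : om < p) : pwm p om 1 = om := by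
  have h := pwm_add_one hg 0
  rw [pwm_zero hg, zero_add, one_mul, Nat.mod_eq_of_lt hom] at h
  exact h

theorem tri_succ' (i : ℕ) : (((i + 1) * (i + 1 - 1) / 2 : ℕ) : ℤ) = ((i * (i - 1) / 2 : ℕ) : ℤ) + i := by
  have h1 := tri2' i
  have h2 := tri2' (i + 1)
  push_cast at h1 h2 ⊢
  nlinarith

theorem tri_succ (m : ℕ) :
    (((m + 1) * (m + 1 + 1) / 2 : ℕ) : ℤ) = ((m * (m + 1) / 2 : ℕ) : ℤ) + (m + 1) := by
  have h1 := tri2 m
  have h2 := tri2 (m + 1)
  push_cast at h1 h2 ⊢
  nlinarith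

theorem pwm_mul (hg : (g : ZMod p) = (om : ZMod p)) {a c e : ℤ} (h : a + c = e) :
    pwm p om a * pwm p om c % p = pwm p om e := by
  rw [← h, pwm_add hg]

theorem pwm_mul_om (hg : (g : ZMod p) = (om : ZMod p)) {a e : ℤ} (h : a + 1 = e) :
    pwm p om a * om % p = pwm p om e := by
  rw [← h, pwm_add_one hg]

/-- table of the first twiddle: `y = 1`, `g = 1`, `r = om` -/
theorem tab_T1 (hg : (g : ZMod p) = (om : ZMod p)) (i : ℕ) :
    tab p om 1 1 i = (T1 p om i, pwm p om i) := by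
  induction i with
  | zero =>
    have h := pwm_zero hg
    simp [tab, T1, h]
  | succ i ih =>
    rw [tab_succ, ih]
    exact Prod.ext (pwm_mul hg (tri_succ' i).symm) (pwm_mul_om hg (by push_cast; rfl))

/-- table of the first kernel: `y = 1`, `g = r = om^(-1)` -/
theorem tab_H1 (hg : (g : ZMod p) = (om : ZMod p)) (m : ℕ) :
    tab p (pwm p om (-1)) 1 (pwm p om (-1)) m = (H1 p om m, pwm p om (-((m : ℤ) + 1))) := by
  induction m with
  | zero =>
    have h := pwm_zero hg
    simp [tab, H1, h]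
  | succ m ih =>
    rw [tab_succ, ih]
    exact Prod.ext (pwm_mul hg (by rw [tri_succ]; ring)) (pwm_mul hg (by push_cast; ring))

/-- table of the second kernel: `y = 1`, `g = r = om` -/
theorem tab_H2 (hg : (g : ZMod p) = (om : ZMod p)) (hom : om < p) (m : ℕ) :
    tab p om 1 om m = (H2 p om m, pwm p om ((m : ℤ) + 1)) := by
  induction m with
  | zero =>
    have h := pwm_zero hg
    have h1 := pwm_one hg hom
    simp [tab, H2, h, h1]
  | succ m ih =>
    rw [tab_succ, ih]
    exact Prod.ext (pwm_mul hg (by rw [tri_succ])) (pwm_mul_om hg (by push_cast; ring))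

/-- row `k` of the second twiddle: `y = g = om^k`, `r = 1` -/
theorem tab_T2 (hg : (g : ZMod p) = (om : ZMod p)) (k d : ℕ) :
    tab p 1 (pwm p om k) (pwm p om k) d = (T2 p om k d, pwm p om k) := by
  have hp0 : 0 < p := hp.out.pos
  induction d with
  | zero => simp [tab, T2]
  | succ d ih =>
    rw [tab_succ, ih]
    refine Prod.ext (pwm_mul hg (by push_cast; ring)) ?_
    show pwm p om k * 1 % p = pwm p om k
    rw [mul_one, Nat.mod_eq_of_lt (pwm_lt hp0 _)]

/-- the starting values of the rows: `om^0 = 1`, `om^(k+1) = om^k * om` -/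
theorem pwm_row_succ (hg : (g : ZMod p) = (om : ZMod p)) (k : ℕ) :
    pwm p om ((k + 1 : ℕ) : ℤ) = pwm p om k * om % p :=
  (pwm_mul_om hg (by push_cast; rfl)).symm

/-- third table: `y = (p-1) * De % p`, `g = r = om^(-1)` -/
theorem tab_T3 (hg : (g : ZMod p) = (om : ZMod p)) (b j : ℕ) :
    tab p (pwm p om (-1)) ((p - 1) * (p / 2 ^ (b + 1)) % p) (pwm p om (-1)) j =
      (T3 p om b j, pwm p om (-((j : ℤ) + 1))) := by
  have hp0 : 0 < p := hp.out.pos
  induction j with
  | zero =>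
    have h := pwm_zero hg
    simp [tab, T3, h]
  | succ j ih =>
    rw [tab_succ, ih]
    refine Prod.ext ?_ (pwm_mul hg (by push_cast; ring))
    show T3 p om b j * pwm p om (-((j : ℤ) + 1)) % p = T3 p om b (j + 1)
    unfold T3
    rw [← pwm_mul hg (a := -((j * (j + 1) / 2 : ℕ) : ℤ)) (c := -((j : ℤ) + 1))
      (e := -(((j + 1) * (j + 1 + 1) / 2 : ℕ) : ℤ)) (by rw [tri_succ]; ring)]
    rw [Nat.mod_mul_mod, Nat.mul_mod_mod, mul_assoc]

end

/-- the stream of a table -/
theorem cat_congr' {n : ℕ} {f h : ℕ → List Bool} (hfh : ∀ i < n, f i = h i) :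
    cat n f = cat n h := by
  unfold cat
  refine List.flatMap_congr fun i hi => hfh i (List.mem_range.1 hi)

/-- table stream: `W`-bit numbers -/
def tabL (W p r y g n : ℕ) : List Bool := cat n fun i => lbits W (tab p r y g i).1

section

variable {p : ℕ} [hp : Fact p.Prime] {om : ℕ} {g : (ZMod p)ˣ}

theorem tabL_T1 (hg : (g : ZMod p) = (om : ZMod p)) (W n : ℕ) :
    tabL W p om 1 1 n = cat n fun i => lbits W (T1 p om i) :=
  cat_congr' fun i _ => by rw [tab_T1 hg]

theorem tabL_H1 (hg : (g : ZMod p) = (om : ZMod p)) (W n : ℕ) :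
    tabL W p (pwm p om (-1)) 1 (pwm p om (-1)) n = cat n fun i => lbits W (H1 p om i) :=
  cat_congr' fun i _ => by rw [tab_H1 hg]

theorem tabL_H2 (hg : (g : ZMod p) = (om : ZMod p)) (hom : om < p) (W n : ℕ) :
    tabL W p om 1 om n = cat n fun i => lbits W (H2 p om i) :=
  cat_congr' fun i _ => by rw [tab_H2 hg hom]

theorem tabL_T2 (hg : (g : ZMod p) = (om : ZMod p)) (W n k : ℕ) :
    tabL W p 1 (pwm p om k) (pwm p om k) n = cat n fun d => lbits W (T2 p om k d) :=
  cat_congr' fun i _ => by rw [tab_T2 hg]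

theorem tabL_T3 (hg : (g : ZMod p) = (om : ZMod p)) (W n b : ℕ) :
    tabL W p (pwm p om (-1)) ((p - 1) * (p / 2 ^ (b + 1)) % p) (pwm p om (-1)) n =
      cat n fun j => lbits W (T3 p om b j) :=
  cat_congr' fun i _ => by rw [tab_T3 hg]

end

end Vale.Agent.P338.D
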