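import Vale.Agent.P338.H373.TabProg

/-!
# Stage 2, D5: the five table programs

`p` prime, `g` the unit `om`.  Constants: `one = 1`, `om`, `oi = om^(-1)`, `de = (p-1)*De % p`.
-/

namespace Vale.Agent.P338.D

open Function (update)

/-- constants and clean state; everything else of `v` is empty -/
structure TabPre (v : TV) (W p om b n : ℕ) : Prop where
  hN : v.N = zer n
  hq : v.q = []
  hN1 : v.N1 = []
  hq1 : v.q1 = []
  hq2 : v.q2 = []
  hY : v.Y = []
  hG : v.G = []
  hR : v.R = []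
  hH : v.H = []
  ha : v.a = []
  hb : v.b = []
  hp : v.p = lbits W p
  ho : v.o = []
  hacc : v.acc = []
  hout : v.out = []
  htmp : v.tmp = []
  hone : v.one = lbits W 1
  hom : v.om = lbits W om
  hoi : v.oi = lbits W (pwm p om (-1))
  hde : v.de = lbits W ((p - 1) * (p / 2 ^ (b + 1)) % p)

section

variable {mul : Prog TReg Bool} {W p cM om b n : ℕ} [hp : Fact p.Prime] {g : (ZMod p)ˣ}

theorem GT1_runs (hg : (g : ZMod p) = (om : ZMod p)) (hom : om < p) (hmul : MulOK mul W p cM)
    (v : TV) (hv : TabPre v W p om b n) :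
    Runs (genOnce mul .one .one .om) (ts v)
      (ts { v with out := cat n fun i => lbits W (T1 p om i) })
      (n * (2 * cM + 30 * W + 18) + 18 * W + 20) := by
  have hp1 : 1 < p := hp.out.one_lt
  have h := genOnce_runs hmul v .one .one .om n 1 1 om trivial trivial trivial hv.hone hv.hone hv.hom
    hp1 hp1 hom hv.hN hv.hq hv.hY hv.hG hv.hR hv.hp hv.ha hv.hb hv.ho hv.htmp hv.hq2 hv.hacc hv.hout
  rwa [tabL_T1 hg] at h

theorem GT3_runs (hg : (g : ZMod p) = (om : ZMod p)) (hmul : MulOK mul W p cM)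
    (v : TV) (hv : TabPre v W p om b n) :
    Runs (genOnce mul .de .oi .oi) (ts v)
      (ts { v with out := cat n fun i => lbits W (T3 p om b i) })
      (n * (2 * cM + 30 * W + 18) + 18 * W + 20) := by
  have hp0 : 0 < p := hp.out.pos
  have h := genOnce_runs hmul v .de .oi .oi n _ _ _ trivial trivial trivial hv.hde hv.hoi hv.hoi
    (Nat.mod_lt _ hp0) (pwm_lt hp0 _) (pwm_lt hp0 _)
    hv.hN hv.hq hv.hY hv.hG hv.hR hv.hp hv.ha hv.hb hv.ho hv.htmp hv.hq2 hv.hacc hv.hout
  rwa [tabL_T3 hg] at h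

theorem GH1_runs (hg : (g : ZMod p) = (om : ZMod p)) (hmul : MulOK mul W p cM)
    (v : TV) (hv : TabPre v W p om b n) :
    Runs (genTwice mul .one .oi .oi) (ts v)
      (ts { v with out := cat (2 * n) fun m => lbits W (H1 p om m) })
      (2 * n * (2 * cM + 30 * W + 18) + 18 * W + 20) := by
  have hp1 : 1 < p := hp.out.one_lt
  have hp0 : 0 < p := hp.out.pos
  have h := genTwice_runs hmul v .one .oi .oi n _ _ _ trivial trivial trivial hv.hone hv.hoi hv.hoi
    hp1 (pwm_lt hp0 _) (pwm_lt hp0 _)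
    hv.hN hv.hq hv.hY hv.hG hv.hR hv.hp hv.ha hv.hb hv.ho hv.htmp hv.hq2 hv.hacc hv.hout
  rwa [tabL_H1 hg] at h

theorem GH2_runs (hg : (g : ZMod p) = (om : ZMod p)) (hom : om < p) (hmul : MulOK mul W p cM)
    (v : TV) (hv : TabPre v W p om b n) :
    Runs (genTwice mul .one .om .om) (ts v)
      (ts { v with out := cat (2 * n) fun m => lbits W (H2 p om m) })
      (2 * n * (2 * cM + 30 * W + 18) + 18 * W + 20) := by
  have hp1 : 1 < p := hp.out.one_lt
  have h := genTwice_runs hmul v .one .om .om n _ _ _ trivial trivial trivial hv.hone hv.hom hv.hom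
    hp1 hom hom hv.hN hv.hq hv.hY hv.hG hv.hR hv.hp hv.ha hv.hb hv.ho hv.htmp hv.hq2 hv.hacc hv.hout
  rwa [tabL_H2 hg hom] at h

theorem powT_eq (hg : (g : ZMod p) = (om : ZMod p)) (k : ℕ) : powT p om k = pwm p om k := by
  induction k with
  | zero => exact (pwm_zero hg).symm
  | succ k ih => rw [powT, ih, pwm_row_succ hg]

theorem GT2_runs (hg : (g : ZMod p) = (om : ZMod p)) (hom : om < p) (hmul : MulOK mul W p cM)
    (v : TV) (hv : TabPre v W p om b n) :
    Runs (genT2 mul) (ts v)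
      (ts { v with out := cat n fun k => cat n fun d => lbits W (T2 p om k d) })
      (n * (n * (2 * cM + 30 * W + 18) + cM + 30 * W + 32) + 6 * W + 12) := by
  have hp1 : 1 < p := hp.out.one_lt
  have h := genT2_runs hmul v n om hp1 hom hv.hN hv.hq hv.hN1 hv.hq1 hv.hY hv.hG hv.hR hv.hH hv.hone hv.hom
    hv.hp hv.ha hv.hb hv.ho hv.htmp hv.hq2 hv.hacc hv.hout
  have h2 : tab2L W p om n n = cat n fun k => cat n fun d => lbits W (T2 p om k d) := by
    unfold tab2L
    refine cat_congr' fun k _ => ?_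
    rw [powT_eq hg, tabL_T2 hg]
  rwa [h2] at h

end

end Vale.Agent.P338.D
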