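import Vale.Agent.P338.H373.TabFinal
import Vale.Agent.P338.H463.NumM
import Vale.Agent.P338.H666.Rename

/-!
# Stage 2, D5: the multiplication modulo `p` of helper463 inside the table programs
-/

namespace Vale.Agent.P338.D

open Function (update)
open Vale.Agent.P338
open _root_.Vale.Agent.P338.Num

/-- placement of the registers of `mulP` -/
def nmap : NR → TReg
  | .acc => .o
  | .x => .a
  | .y => .b
  | .p => .p
  | .ta => .t 0
  | .tb => .t 1
  | .tp => .t 2
  | .tx => .t 3
  | .c1 => .t 4
  | .c2 => .t 5
  | .yr => .t 6
  | .bt => .t 7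
  | .f => .t 8

theorem nmap_injective : Function.Injective nmap := by
  intro a b h
  cases a <;> cases b <;> first | rfl | (exact absurd h (by decide))

/-- `o := a * b mod p`, `a`, `b` consumed -/
noncomputable def mulT : Prog TReg Bool := .seq (mulP.ren nmap) (.seq (.clear .a) (.clear .b))

theorem mulT_ok {W p : ℕ} (hP : 2 * p ≤ 2 ^ W) : MulOK mulT W p (20 * W ^ 2 + 56 * W + 6) := by
  intro v x y hx hy ha hb hp ho ht hq
  have h1 := mulP_runs hx hy hP { x := lbits W x, y := lbits W y, p := lbits W p }
    ⟨rfl, rfl, rfl, rfl, rfl, rfl⟩ rfl rfl rfl rfl rfl rfl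
  have h2 := Runs.ren' nmap_injective h1 (ts v) (by
    intro l
    cases l
    all_goals first | exact ho | exact ha | exact hb | exact hp | rfl)
  have e1 : put nmap (NS.st
      { acc := lbits W (x * y % p), x := lbits W x, y := lbits W y, p := lbits W p }) (ts v) =
      ts { v with o := lbits W (x * y % p) } := by
    funext r
    by_cases hr : ∃ l, nmap l = r
    · obtain ⟨l, rfl⟩ := hr
      rw [put_apply nmap_injective]
      cases l
      all_goals first | exact ha.symm | exact hb.symm | exact hp.symm | rfl
    · rw [put_of_not _ _ hr]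
      cases r
      case o => exact absurd ⟨.acc, rfl⟩ hr
      all_goals rfl
  have h3 := Runs.clear (Γ := Bool) TReg.a (ts { v with o := lbits W (x * y % p) })
  have h4 := Runs.clear (Γ := Bool) TReg.b (ts { v with o := lbits W (x * y % p), a := [] })
  simp only [ts_a, ts_b] at h3 h4
  refine ((h2.conv e1 le_rfl).seq (h3.seq h4)).weaken ?_
  simp only [ts, ha, hb, length_lbits]
  omega

end Vale.Agent.P338.D
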