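import Vale.Agent.P338.H373.TabD
import Vale.Agent.P338.H763.Lib2

/-!
# Stage 2, D5: the programs that produce the table streams

Own registers `TReg`.  `mul` is an abstract program for multiplication modulo `p`
(hypothesis `MulOK`).  `GEN1 cy cg cr` produces `tabL W p r y g n`, `GEN2 ..` the table with `2n`
entries, `GENT2` the table `T2` of `n` rows with `n` entries each.
-/

set_option linter.unusedSectionVars false
set_option linter.unusedSimpArgs false

namespace Vale.Agent.P338

open Function (update)

/-! ### two library programs -/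

section lib

variable {R Γ : Type} [DecidableEq R]

namespace Prog

/-- move all of `r` on top of `q`, same order (scratch `t`) -/
def mvAll (r t q : R) : Prog R Γ := .seq (flip r t) (flip t q)

/-- push a copy of `r` on `dst` in reversed order (scratch `q`) -/
def emit (r q dst : R) : Prog R Γ :=
  .seq (whileNE r (.act fun t => match t r with
    | none => fun _ => .nop
    | some a => update (update (update (fun _ => .nop) r .pop) q (.push a)) dst (.push a)))
    (flip q r)

end Prog

namespace Runs

variable {s : Store R Γ}

theorem mvAll {r t q : R} (hrt : r ≠ t) (htq : t ≠ q) (hrq : r ≠ q) (ht : s t = []) :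
    Runs (.mvAll r t q) s (update (update s r []) q (s r ++ s q)) (4 * (s r).length + 2) := by
  refine ((Runs.flip hrt s).seq (Runs.flip htq _)).conv ?_ ?_
  · funext x
    simp only [Function.update_apply, ht]
    split_ifs <;> simp_all
  · simp only [Function.update_self, ht, List.append_nil, List.length_reverse]
    omega

theorem emit {r q dst : R} (hrq : r ≠ q) (hrd : r ≠ dst) (hqd : q ≠ dst) (hq : s q = []) :
    Runs (.emit r q dst) s (update s dst ((s r).reverse ++ s dst)) (4 * (s r).length + 2) := by
  set l := s r with hl
  have h1 := loop_family (t := fun t : R → Option Γ => (t r).isSome)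
    (body := .act fun t => match t r with
      | none => fun _ => .nop
      | some a => update (update (update (fun _ => .nop) r .pop) q (.push a)) dst (.push a))
    (fun i => update (update (update s r (l.drop i)) q ((l.take i).reverse)) dst
      ((l.take i).reverse ++ s dst)) l.length (fun _ => 1)
    (by
      intro i hi
      simp only [Store.tops]
      rw [Function.update_of_ne hrd, Function.update_of_ne hrq, Function.update_self,
        List.drop_eq_getElem_cons hi]
      rfl)
    (by
      simp only [Store.tops]
      rw [Function.update_of_ne hrd, Function.update_of_ne hrq, Function.update_self,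
        List.drop_length]
      rfl)
    (by
      intro i hi
      refine act_eq fun x => ?_
      have h2 : Store.tops (update (update (update s r (l.drop i)) q ((l.take i).reverse)) dst
        ((l.take i).reverse ++ s dst)) r = some l[i] := by
        simp only [Store.tops]
        rw [Function.update_of_ne hrd, Function.update_of_ne hrq, Function.update_self,
          List.drop_eq_getElem_cons hi]
        rfl
      have h3 : (l.take (i + 1)).reverse = l[i] :: (l.take i).reverse := by
        rw [List.take_succ_eq_append_getElem hi, List.reverse_append]; rfl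
      have h4 : (l.drop i).tail = l.drop (i + 1) := by
        rw [List.drop_eq_getElem_cons hi]; rfl
      simp only [h2]
      by_cases hx1 : x = dst
      · subst hx1
        simp only [Function.update_self]
        rw [h3]; rfl
      · by_cases hx2 : x = q
        · subst hx2
          simp only [Function.update_self, Function.update_of_ne hx1]
          rw [h3]; rfl
        · by_cases hx3 : x = r
          · subst hx3
            simp only [Function.update_self, Function.update_of_ne hx1,
              Function.update_of_ne hx2]
            exact h4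
          · simp only [Function.update_of_ne hx1, Function.update_of_ne hx2,
              Function.update_of_ne hx3]
            rfl)
  have h5 := Runs.flip hrq.symm (update (update (update s r (l.drop l.length)) q
    ((l.take l.length).reverse)) dst ((l.take l.length).reverse ++ s dst))
  have h0 : update (update (update s r (l.drop 0)) q ((l.take 0).reverse)) dst
      ((l.take 0).reverse ++ s dst) = s := by
    funext x
    simp only [Function.update_apply]
    split_ifs <;> simp_all
  simp only [h0] at h1
  refine (h1.seq h5).conv ?_ ?_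
  · funext x
    simp only [Function.update_apply, hrq, hrd, hqd, hrq.symm, hrd.symm, hqd.symm, if_true, if_false]
    split_ifs <;> simp_all
  · simp only [Function.update_apply, hrq, hrd, hqd, hrq.symm, hrd.symm, hqd.symm, if_true,
      if_false, List.take_length, List.length_reverse, Finset.sum_const, Finset.card_range,
      smul_eq_mul]
    omega

end Runs

end lib

namespace D

/-- registers of the table programs -/
inductive TReg : Type
  | N | q | N1 | q1 | q2 | Y | G | R | H | a | b | p | o | acc | out | tmp | one | om | oi | de | W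
  | t (i : Fin 9)
  deriving DecidableEq

/-- values of the registers -/
structure TV where
  N : List Bool := []
  q : List Bool := []
  N1 : List Bool := []
  q1 : List Bool := []
  q2 : List Bool := []
  Y : List Bool := []
  G : List Bool := []
  R : List Bool := []
  H : List Bool := []
  a : List Bool := []
  b : List Bool := []
  p : List Bool := []
  o : List Bool := []
  acc : List Bool := []
  out : List Bool := []
  tmp : List Bool := []
  one : List Bool := []
  om : List Bool := []
  oi : List Bool := []
  de : List Bool := []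
  W : List Bool := []

/-- the store with these values, other temporaries empty -/
def ts (v : TV) : Store TReg Bool
  | .N => v.N
  | .q => v.q
  | .N1 => v.N1
  | .q1 => v.q1
  | .q2 => v.q2
  | .Y => v.Y
  | .G => v.G
  | .R => v.R
  | .H => v.H
  | .a => v.a
  | .b => v.b
  | .p => v.p
  | .o => v.o
  | .acc => v.acc
  | .out => v.out
  | .tmp => v.tmp
  | .one => v.one
  | .om => v.om
  | .oi => v.oi
  | .de => v.de
  | .W => v.W
  | .t _ => []

section upd
variable (v : TV) (l : List Bool)
@[simp] theorem ts_N : update (ts v) .N l = ts { v with N := l } := by funext r; cases r <;> rfl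
@[simp] theorem ts_q : update (ts v) .q l = ts { v with q := l } := by funext r; cases r <;> rfl
@[simp] theorem ts_N1 : update (ts v) .N1 l = ts { v with N1 := l } := by funext r; cases r <;> rfl
@[simp] theorem ts_q1 : update (ts v) .q1 l = ts { v with q1 := l } := by funext r; cases r <;> rfl
@[simp] theorem ts_q2 : update (ts v) .q2 l = ts { v with q2 := l } := by funext r; cases r <;> rfl
@[simp] theorem ts_Y : update (ts v) .Y l = ts { v with Y := l } := by funext r; cases r <;> rfl
@[simp] theorem ts_G : update (ts v) .G l = ts { v with G := l } := by funext r; cases r <;> rfl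
@[simp] theorem ts_R : update (ts v) .R l = ts { v with R := l } := by funext r; cases r <;> rfl
@[simp] theorem ts_H : update (ts v) .H l = ts { v with H := l } := by funext r; cases r <;> rfl
@[simp] theorem ts_a : update (ts v) .a l = ts { v with a := l } := by funext r; cases r <;> rfl
@[simp] theorem ts_b : update (ts v) .b l = ts { v with b := l } := by funext r; cases r <;> rfl
@[simp] theorem ts_o : update (ts v) .o l = ts { v with o := l } := by funext r; cases r <;> rfl
@[simp] theorem ts_one : update (ts v) .one l = ts { v with one := l } := by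
  funext r; cases r <;> rfl
@[simp] theorem ts_acc : update (ts v) .acc l = ts { v with acc := l } := by
  funext r; cases r <;> rfl
@[simp] theorem ts_out : update (ts v) .out l = ts { v with out := l } := by
  funext r; cases r <;> rfl
end upd

/-- specification of multiplication modulo `p`: `o := a * b mod p`, `a` and `b` are consumed -/
def MulOK (mul : Prog TReg Bool) (W p cM : ℕ) : Prop :=
  ∀ (v : TV) (x y : ℕ), x < p → y < p → v.a = lbits W x → v.b = lbits W y → v.p = lbits W p →
    v.o = [] → v.tmp = [] → v.q2 = [] →
    Runs mul (ts v) (ts { v with a := [], b := [], o := lbits W (x * y % p) }) cM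

/-- `r := r * c mod p` where `c` is a constant register -/
def mulStep (mul : Prog TReg Bool) (r c : TReg) : Prog TReg Bool :=
  .seq (.mvAll r .tmp .a) (.seq (.copy c .q2 .b) (.seq mul (.mvAll .o .tmp r)))

theorem length_lbits (W n : ℕ) : (lbits W n).length = W := by
  induction W generalizing n with
  | zero => rfl
  | succ W ih => simp [lbits, ih]

variable {mul : Prog TReg Bool} {W p cM : ℕ}

/-- `Y := Y * G mod p` -/
theorem stepY_runs (hmul : MulOK mul W p cM) (v : TV) (x y : ℕ) (hx : x < p) (hy : y < p)
    (hY : v.Y = lbits W x) (hG : v.G = lbits W y) (hp : v.p = lbits W p) (ha : v.a = [])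
    (hb : v.b = []) (ho : v.o = []) (ht : v.tmp = []) (hq : v.q2 = []) :
    Runs (mulStep mul .Y .G) (ts v) (ts { v with Y := lbits W (x * y % p) }) (cM + 12 * W + 6) := by
  have h1 := Runs.mvAll (s := ts v) (r := TReg.Y) (t := TReg.tmp) (q := TReg.a) (by decide)
    (by decide) (by decide) ht
  have h2 := Runs.copy (s := ts { v with Y := [], a := lbits W x }) (r := TReg.G)
    (q := TReg.q2) (dst := TReg.b) (by decide) (by decide) (by decide) hq
  have h3 := hmul { v with Y := [], a := lbits W x, b := lbits W y } x y hx hy rfl rfl hp ho ht hq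
  have h4 := Runs.mvAll (s := ts { v with Y := [], a := [], b := [], o := lbits W (x * y % p) })
    (r := TReg.o) (t := TReg.tmp) (q := TReg.Y) (by decide) (by decide) (by decide) ht
  refine (((h1.conv ?_ le_rfl).seq ((h2.conv ?_ le_rfl).seq (h3.seq h4)))).conv ?_ ?_
  · simp [ts, hY, ha]
  · simp [ts, hG, hb]
  · simp [ts, ha, hb, ho]
  · simp only [ts, hY, hG, length_lbits]
    omega

/-- `G := G * R mod p` -/
theorem stepG_runs (hmul : MulOK mul W p cM) (v : TV) (x y : ℕ) (hx : x < p) (hy : y < p)
    (hY : v.G = lbits W x) (hG : v.R = lbits W y) (hp : v.p = lbits W p) (ha : v.a = [])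
    (hb : v.b = []) (ho : v.o = []) (ht : v.tmp = []) (hq : v.q2 = []) :
    Runs (mulStep mul .G .R) (ts v) (ts { v with G := lbits W (x * y % p) }) (cM + 12 * W + 6) := by
  have h1 := Runs.mvAll (s := ts v) (r := TReg.G) (t := TReg.tmp) (q := TReg.a) (by decide)
    (by decide) (by decide) ht
  have h2 := Runs.copy (s := ts { v with G := [], a := lbits W x }) (r := TReg.R)
    (q := TReg.q2) (dst := TReg.b) (by decide) (by decide) (by decide) hq
  have h3 := hmul { v with G := [], a := lbits W x, b := lbits W y } x y hx hy rfl rfl hp ho ht hq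
  have h4 := Runs.mvAll (s := ts { v with G := [], a := [], b := [], o := lbits W (x * y % p) })
    (r := TReg.o) (t := TReg.tmp) (q := TReg.G) (by decide) (by decide) (by decide) ht
  refine (((h1.conv ?_ le_rfl).seq ((h2.conv ?_ le_rfl).seq (h3.seq h4)))).conv ?_ ?_
  · simp [ts, hY, ha]
  · simp [ts, hG, hb]
  · simp [ts, ha, hb, ho]
  · simp only [ts, hY, hG, length_lbits]
    omega

/-- `H := H * om mod p` -/
theorem stepH_runs (hmul : MulOK mul W p cM) (v : TV) (x y : ℕ) (hx : x < p) (hy : y < p)
    (hY : v.H = lbits W x) (hG : v.om = lbits W y) (hp : v.p = lbits W p) (ha : v.a = [])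
    (hb : v.b = []) (ho : v.o = []) (ht : v.tmp = []) (hq : v.q2 = []) :
    Runs (mulStep mul .H .om) (ts v) (ts { v with H := lbits W (x * y % p) })
      (cM + 12 * W + 6) := by
  have h1 := Runs.mvAll (s := ts v) (r := TReg.H) (t := TReg.tmp) (q := TReg.a) (by decide)
    (by decide) (by decide) ht
  have h2 := Runs.copy (s := ts { v with H := [], a := lbits W x }) (r := TReg.om)
    (q := TReg.q2) (dst := TReg.b) (by decide) (by decide) (by decide) hq
  have h3 := hmul { v with H := [], a := lbits W x, b := lbits W y } x y hx hy rfl rfl hp ho ht hq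
  have h4 := Runs.mvAll (s := ts { v with H := [], a := [], b := [], o := lbits W (x * y % p) })
    (r := TReg.o) (t := TReg.tmp) (q := TReg.H) (by decide) (by decide) (by decide) ht
  refine (((h1.conv ?_ le_rfl).seq ((h2.conv ?_ le_rfl).seq (h3.seq h4)))).conv ?_ ?_
  · simp [ts, hY, ha]
  · simp [ts, hG, hb]
  · simp [ts, ha, hb, ho]
  · simp only [ts, hY, hG, length_lbits]
    omega

/-- one entry of a table -/
def genBody (mul : Prog TReg Bool) : Prog TReg Bool :=
  .seq (.emit .Y .tmp .acc) (.seq (mulStep mul .Y .G) (mulStep mul .G .R))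

theorem genBody_runs (hmul : MulOK mul W p cM) (v : TV) (z : ℕ × ℕ) (r : ℕ) (hz1 : z.1 < p)
    (hz2 : z.2 < p) (hr : r < p) (hY : v.Y = lbits W z.1) (hG : v.G = lbits W z.2)
    (hR : v.R = lbits W r) (hp : v.p = lbits W p) (ha : v.a = [])
    (hb : v.b = []) (ho : v.o = []) (ht : v.tmp = []) (hq : v.q2 = []) :
    Runs (genBody mul) (ts v) (ts { v with
        Y := lbits W (tabStep p r z).1
        G := lbits W (tabStep p r z).2
        acc := (lbits W z.1).reverse ++ v.acc })
      (2 * cM + 28 * W + 14) := by
  have h1 := Runs.emit (s := ts v) (r := TReg.Y) (q := TReg.tmp) (dst := TReg.acc) (by decide)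
    (by decide) (by decide) ht
  have h2 := stepY_runs hmul { v with acc := (lbits W z.1).reverse ++ v.acc } z.1 z.2 hz1 hz2 hY hG
    hp ha hb ho ht hq
  have h3 := stepG_runs hmul { v with
      Y := lbits W (z.1 * z.2 % p)
      acc := (lbits W z.1).reverse ++ v.acc } z.2 r hz2 hr hG hR
    hp ha hb ho ht hq
  refine ((h1.conv ?_ le_rfl).seq (h2.seq h3)).conv ?_ ?_
  · simp [ts, hY]
  · simp [tabStep]
  · simp only [ts, hY, length_lbits]
    omega

/-- the loop over the ruler `N` -/
def genLoop (mul : Prog TReg Bool) : Prog TReg Bool := .forR .N .q (genBody mul)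

theorem tabL_succ (W p r y g n : ℕ) :
    tabL W p r y g (n + 1) = tabL W p r y g n ++ lbits W (tab p r y g n).1 := by
  simp [tabL, cat, List.range_succ]

theorem genLoop_runs (hmul : MulOK mul W p cM) (v : TV) (n y g r : ℕ) (hy : y < p)
    (hg : g < p) (hr : r < p) (hN : v.N = zer n) (hqN : v.q = []) (hY : v.Y = lbits W y)
    (hG : v.G = lbits W g)
    (hR : v.R = lbits W r) (hp : v.p = lbits W p) (ha : v.a = [])
    (hb : v.b = []) (ho : v.o = []) (ht : v.tmp = []) (hq : v.q2 = []) :
    Runs (genLoop mul) (ts v) (ts { v with
        Y := lbits W (tab p r y g n).1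
        G := lbits W (tab p r y g n).2
        acc := (tabL W p r y g n).reverse ++ v.acc })
      (n * (2 * cM + 28 * W + 18) + 2) := by
  have hp0 : 0 < p := by omega
  have h := Runs.forR (p := genBody mul) (r := TReg.N) (q := TReg.q) (by decide) (a := false)
    (n := n) (fun i => ts { v with
        Y := lbits W (tab p r y g i).1
        G := lbits W (tab p r y g i).2
        acc := (tabL W p r y g i).reverse ++ v.acc }) (2 * cM + 28 * W + 14) hN hqN (by
      intro i hi
      have h1 := genBody_runs hmul { v with
        N := zer (n - 1 - i)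
        q := zer (i + 1)
        Y := lbits W (tab p r y g i).1
        G := lbits W (tab p r y g i).2
        acc := (tabL W p r y g i).reverse ++ v.acc } (tab p r y g i) r
        (tab_lt hp0 hy hg i).1 (tab_lt hp0 hy hg i).2 hr rfl rfl hR hp ha hb ho ht hq
      simp only [ts_N, ts_q]
      refine h1.conv ?_ le_rfl
      simp only [tabL_succ, List.reverse_append, List.append_assoc]
      rfl)
  have h0 : ts { v with
        Y := lbits W (tab p r y g 0).1
        G := lbits W (tab p r y g 0).2
        acc := (tabL W p r y g 0).reverse ++ v.acc } = ts v := by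
    simp only [tab, ← hY, ← hG]
    rfl
  simp only [h0] at h
  refine h.conv ?_ ?_
  · simp only [ts_N, ts_q]
    show ts { v with
        N := zer n
        q := []
        Y := lbits W (tab p r y g n).1
        G := lbits W (tab p r y g n).2
        acc := (tabL W p r y g n).reverse ++ v.acc } = _
    rw [← hN, ← hqN]
  · exact le_of_eq (by ring)

/-! ### one-row tables -/

/-- load the constants, run the loop once -/
def genOnce (mul : Prog TReg Bool) (cy cg cr : TReg) : Prog TReg Bool :=
  .seq (.copy cy .q2 .Y) (.seq (.copy cg .q2 .G) (.seq (.copy cr .q2 .R) (.seq (genLoop mul)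
    (.seq (.clear .Y) (.seq (.clear .G) (.seq (.clear .R) (.flip .acc .out)))))))

/-- load the constants, run the loop twice -/
def genTwice (mul : Prog TReg Bool) (cy cg cr : TReg) : Prog TReg Bool :=
  .seq (.copy cy .q2 .Y) (.seq (.copy cg .q2 .G) (.seq (.copy cr .q2 .R) (.seq (genLoop mul)
    (.seq (genLoop mul)
    (.seq (.clear .Y) (.seq (.clear .G) (.seq (.clear .R) (.flip .acc .out))))))))

/-- constant registers -/
def IsConst : TReg → Prop
  | .one | .om | .oi | .de | .H => True
  | _ => False

theorem copyTo (v : TV) (c d : TReg) (x : ℕ) (hcd : c ≠ d) (hc2 : c ≠ .q2) (hd2 : TReg.q2 ≠ d)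
    (hq : v.q2 = []) (hc : ts v c = lbits W x) (hd : ts v d = []) :
    Runs (.copy c .q2 d) (ts v) (update (ts v) d (lbits W x)) (4 * W + 2) := by
  have h := Runs.copy (s := ts v) (r := c) (q := TReg.q2) (dst := d) hc2 hcd hd2 hq
  refine h.conv (by rw [hc, hd, List.append_nil]) (by rw [hc, length_lbits])

theorem ts_const (v : TV) (c : TReg) (hc : IsConst c) (Y G R : List Bool) :
    ts { v with Y := Y, G := G, R := R } c = ts v c := by
  cases c <;> first | rfl | exact hc.elim

theorem tabL_add (W p r y g m n : ℕ) :
    tabL W p r y g (m + n) =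
      tabL W p r y g m ++ tabL W p r (tab p r y g m).1 (tab p r y g m).2 n := by
  have h : ∀ n, tab p r y g (m + n) = tab p r (tab p r y g m).1 (tab p r y g m).2 n := by
    intro n
    induction n with
    | zero => rfl
    | succ n ih => rw [← Nat.add_assoc, tab_succ, ih]; rfl
  induction n with
  | zero => simp [tabL, cat]
  | succ n ih => rw [← Nat.add_assoc, tabL_succ, ih, tabL_succ, h, List.append_assoc]

/-- loading the constants -/
theorem load_runs (v : TV) (cy cg cr : TReg) (y g r : ℕ) (h1 : IsConst cy) (h2 : IsConst cg)
    (h3 : IsConst cr) (hy : ts v cy = lbits W y) (hg : ts v cg = lbits W g)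
    (hr : ts v cr = lbits W r) (hY : v.Y = []) (hG : v.G = []) (hR : v.R = [])
    (hq : v.q2 = []) (rest : Prog TReg Bool) (s' : Store TReg Bool) (c : ℕ)
    (h : Runs rest (ts { v with Y := lbits W y, G := lbits W g, R := lbits W r }) s' c) :
    Runs (.seq (.copy cy .q2 .Y) (.seq (.copy cg .q2 .G) (.seq (.copy cr .q2 .R) rest)))
      (ts v) s' (c + 12 * W + 6) := by
  have a1 := copyTo (W := W) v cy .Y y (by rintro rfl; exact h1) (by rintro rfl; exact h1)
    (by decide) hq hy hY
  have a2 := copyTo (W := W) { v with Y := lbits W y } cg .G g (by rintro rfl; exact h2)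
    (by rintro rfl; exact h2) (by decide) hq
    (by rw [← hg]; exact ts_const v cg h2 (lbits W y) v.G v.R) hG
  have a3 := copyTo (W := W) { v with Y := lbits W y, G := lbits W g } cr .R r
    (by rintro rfl; exact h3)
    (by rintro rfl; exact h3) (by decide) hq
    (by rw [← hr]; exact ts_const v cr h3 (lbits W y) (lbits W g) v.R) hR
  simp only [ts_Y] at a1
  simp only [ts_G] at a2
  simp only [ts_R] at a3
  exact (a1.seq (a2.seq (a3.seq h))).weaken (by omega)

/-- clearing `Y, G, R` and writing the table out -/
theorem finish_runs (v : TV) (y g r : ℕ) (hY : v.Y = lbits W y) (hG : v.G = lbits W g)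
    (hR : v.R = lbits W r) (L : List Bool) (hacc : v.acc = L.reverse) (hout : v.out = []) :
    Runs (.seq (.clear .Y) (.seq (.clear .G) (.seq (.clear .R) (.flip .acc .out))))
      (ts v) (ts { v with Y := [], G := [], R := [], acc := [], out := L })
      (6 * W + 2 * L.length + 4) := by
  have a1 := Runs.clear (Γ := Bool) TReg.Y (ts v)
  have a2 := Runs.clear (Γ := Bool) TReg.G (ts { v with Y := [] })
  have a3 := Runs.clear (Γ := Bool) TReg.R (ts { v with Y := [], G := [] })
  have a4 := Runs.flip (Γ := Bool) (r := TReg.acc) (q := TReg.out) (by decide)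
    (ts { v with Y := [], G := [], R := [] })
  simp only [ts_Y] at a1
  simp only [ts_G] at a2
  simp only [ts_R] at a3
  refine (a1.seq (a2.seq (a3.seq a4))).conv ?_ ?_
  · simp [ts, hacc, hout]
  · simp only [ts, hY, hG, hR, length_lbits, hacc, List.length_reverse]
    omega

theorem length_tabL (W p r y g n : ℕ) : (tabL W p r y g n).length = n * W := by
  induction n with
  | zero => simp [tabL, cat]
  | succ n ih => rw [tabL_succ, List.length_append, ih, length_lbits]; ring

theorem genOnce_runs (hmul : MulOK mul W p cM) (v : TV) (cy cg cr : TReg) (n y g r : ℕ)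
    (h1 : IsConst cy) (h2 : IsConst cg) (h3 : IsConst cr) (hy : ts v cy = lbits W y)
    (hg : ts v cg = lbits W g) (hr : ts v cr = lbits W r) (hyp : y < p)
    (hgp : g < p) (hrp : r < p) (hN : v.N = zer n) (hqN : v.q = []) (hY : v.Y = [])
    (hG : v.G = []) (hR : v.R = []) (hp : v.p = lbits W p) (ha : v.a = [])
    (hb : v.b = []) (ho : v.o = []) (ht : v.tmp = []) (hq : v.q2 = []) (hacc : v.acc = [])
    (hout : v.out = []) :
    Runs (genOnce mul cy cg cr) (ts v) (ts { v with out := tabL W p r y g n })
      (n * (2 * cM + 30 * W + 18) + 18 * W + 20) := by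
  have b1 := genLoop_runs hmul { v with Y := lbits W y, G := lbits W g, R := lbits W r } n y g r
    hyp hgp hrp hN hqN rfl rfl rfl hp ha hb ho ht hq
  have b2 := finish_runs (W := W) { v with
    Y := lbits W (tab p r y g n).1
    G := lbits W (tab p r y g n).2
    R := lbits W r
    acc := (tabL W p r y g n).reverse ++ v.acc } _ _ _ rfl rfl rfl (tabL W p r y g n)
    (by rw [hacc, List.append_nil]) hout
  refine (load_runs v cy cg cr y g r h1 h2 h3 hy hg hr hY hG hR hq _ _ _ (b1.seq b2)).conv ?_ ?_
  · simp [hY, hG, hR, hacc]
  · rw [length_tabL]; nlinarith [Nat.zero_le (n * W), Nat.zero_le (n * cM)]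

theorem genTwice_runs (hmul : MulOK mul W p cM) (v : TV) (cy cg cr : TReg) (n y g r : ℕ)
    (h1 : IsConst cy) (h2 : IsConst cg) (h3 : IsConst cr) (hy : ts v cy = lbits W y)
    (hg : ts v cg = lbits W g) (hr : ts v cr = lbits W r) (hyp : y < p)
    (hgp : g < p) (hrp : r < p) (hN : v.N = zer n) (hqN : v.q = []) (hY : v.Y = [])
    (hG : v.G = []) (hR : v.R = []) (hp : v.p = lbits W p) (ha : v.a = [])
    (hb : v.b = []) (ho : v.o = []) (ht : v.tmp = []) (hq : v.q2 = []) (hacc : v.acc = [])
    (hout : v.out = []) :
    Runs (genTwice mul cy cg cr) (ts v) (ts { v with out := tabL W p r y g (2 * n) })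
      (2 * n * (2 * cM + 30 * W + 18) + 18 * W + 20) := by
  have hp0 : 0 < p := by omega
  have b1 := genLoop_runs hmul { v with Y := lbits W y, G := lbits W g, R := lbits W r } n y g r
    hyp hgp hrp hN hqN rfl rfl rfl hp ha hb ho ht hq
  have b2 := genLoop_runs hmul { v with
    Y := lbits W (tab p r y g n).1
    G := lbits W (tab p r y g n).2
    R := lbits W r
    acc := (tabL W p r y g n).reverse ++ v.acc } n (tab p r y g n).1 (tab p r y g n).2 r
    (tab_lt hp0 hyp hgp n).1 (tab_lt hp0 hyp hgp n).2 hrp hN hqN rfl rfl rfl hp ha hb ho ht hq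
  have b3 := finish_runs (W := W) { v with
    Y := lbits W (tab p r (tab p r y g n).1 (tab p r y g n).2 n).1
    G := lbits W (tab p r (tab p r y g n).1 (tab p r y g n).2 n).2
    R := lbits W r
    acc := (tabL W p r (tab p r y g n).1 (tab p r y g n).2 n).reverse ++
      ((tabL W p r y g n).reverse ++ v.acc) } _ _ _ rfl rfl rfl (tabL W p r y g (2 * n))
    (by rw [hacc, List.append_nil, two_mul, tabL_add, List.reverse_append]) hout
  refine (load_runs v cy cg cr y g r h1 h2 h3 hy hg hr hY hG hR hq _ _ _
    (b1.seq (b2.seq b3))).conv ?_ ?_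
  · simp [hY, hG, hR, hacc]
  · rw [length_tabL]; nlinarith [Nat.zero_le (n * W), Nat.zero_le (n * cM)]

/-! ### the table `T2` -/

/-- row `k`: `Y := H; G := H; R := 1`; `n` entries; clear; `H := H * om` -/
def rowBody (mul : Prog TReg Bool) : Prog TReg Bool :=
  .seq (.copy .H .q2 .Y) (.seq (.copy .H .q2 .G) (.seq (.copy .one .q2 .R) (.seq (genLoop mul)
    (.seq (.clear .Y) (.seq (.clear .G) (.seq (.clear .R) (mulStep mul .H .om)))))))

/-- the table `T2` -/
def genT2 (mul : Prog TReg Bool) : Prog TReg Bool :=
  .seq (.copy .one .q2 .H) (.seq (.copy .N .q .N1) (.seq (.forR .N1 .q1 (rowBody mul))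
    (.seq (.clear .N1) (.seq (.clear .H) (.flip .acc .out)))))

/-- powers of `om` modulo `p` -/
def powT (p om : ℕ) : ℕ → ℕ
  | 0 => 1
  | k + 1 => powT p om k * om % p

/-- rows of the table `T2` -/
def tab2L (W p om n k : ℕ) : List Bool := cat k fun i => tabL W p 1 (powT p om i) (powT p om i) n

theorem tab2L_succ (W p om n k : ℕ) :
    tab2L W p om n (k + 1) = tab2L W p om n k ++ tabL W p 1 (powT p om k) (powT p om k) n := by
  simp [tab2L, cat, List.range_succ]

theorem powT_lt {p om : ℕ} (hp : 1 < p) (k : ℕ) : powT p om k < p := by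
  cases k with
  | zero => exact hp
  | succ k => exact Nat.mod_lt _ (by omega)

theorem length_tab2L (W p om n k : ℕ) : (tab2L W p om n k).length = k * (n * W) := by
  induction k with
  | zero => simp [tab2L, cat]
  | succ k ih => rw [tab2L_succ, List.length_append, ih, length_tabL]; ring

theorem clearYGR_runs (v : TV) (y g r : ℕ) (hY : v.Y = lbits W y) (hG : v.G = lbits W g)
    (hR : v.R = lbits W r) (rest : Prog TReg Bool) (s' : Store TReg Bool) (c : ℕ)
    (h : Runs rest (ts { v with Y := [], G := [], R := [] }) s' c) :
    Runs (.seq (.clear .Y) (.seq (.clear .G) (.seq (.clear .R) rest)))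
      (ts v) s' (c + 6 * W + 3) := by
  have a1 := Runs.clear (Γ := Bool) TReg.Y (ts v)
  have a2 := Runs.clear (Γ := Bool) TReg.G (ts { v with Y := [] })
  have a3 := Runs.clear (Γ := Bool) TReg.R (ts { v with Y := [], G := [] })
  simp only [ts_Y] at a1
  simp only [ts_G] at a2
  simp only [ts_R] at a3
  refine (a1.seq (a2.seq (a3.seq h))).weaken ?_
  simp only [ts, hY, hG, hR, length_lbits]
  omega

theorem rowBody_runs (hmul : MulOK mul W p cM) (v : TV) (n k om : ℕ) (hp1 : 1 < p)
    (hom : om < p) (hN : v.N = zer n) (hqN : v.q = []) (hY : v.Y = [])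
    (hG : v.G = []) (hR : v.R = []) (hH : v.H = lbits W (powT p om k))
    (h1 : v.one = lbits W 1) (hO : v.om = lbits W om) (hp : v.p = lbits W p) (ha : v.a = [])
    (hb : v.b = []) (ho : v.o = []) (ht : v.tmp = []) (hq : v.q2 = []) :
    Runs (rowBody mul) (ts v) (ts { v with
        H := lbits W (powT p om (k + 1))
        acc := (tabL W p 1 (powT p om k) (powT p om k) n).reverse ++ v.acc })
      (n * (2 * cM + 28 * W + 18) + cM + 30 * W + 20) := by
  have hk := powT_lt (om := om) hp1 k
  have b1 := genLoop_runs hmul { v with Y := lbits W (powT p om k), G := lbits W (powT p om k), R := lbits W 1 } n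
    (powT p om k) (powT p om k) 1 hk hk hp1 hN hqN rfl rfl rfl hp ha hb ho ht hq
  have b2 := stepH_runs hmul { v with
      Y := []
      G := []
      R := []
      acc := (tabL W p 1 (powT p om k) (powT p om k) n).reverse ++ v.acc } (powT p om k) om hk hom
    hH hO hp ha hb ho ht hq
  have b3 := clearYGR_runs (W := W) { v with
      Y := lbits W (tab p 1 (powT p om k) (powT p om k) n).1
      G := lbits W (tab p 1 (powT p om k) (powT p om k) n).2
      R := lbits W 1
      acc := (tabL W p 1 (powT p om k) (powT p om k) n).reverse ++ v.acc } _ _ _ rfl rfl rfl _ _ _ b2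
  refine (load_runs v .H .H .one (powT p om k) (powT p om k) 1 trivial trivial trivial hH hH h1
    hY hG hR hq _ _ _ (b1.seq b3)).conv ?_ ?_
  · simp [hY, hG, hR, powT]
  · omega

theorem genT2_runs (hmul : MulOK mul W p cM) (v : TV) (n om : ℕ) (hp1 : 1 < p)
    (hom : om < p) (hN : v.N = zer n) (hqN : v.q = []) (hN1 : v.N1 = []) (hq1 : v.q1 = [])
    (hY : v.Y = [])
    (hG : v.G = []) (hR : v.R = []) (hH : v.H = [])
    (h1 : v.one = lbits W 1) (hO : v.om = lbits W om) (hp : v.p = lbits W p) (ha : v.a = [])
    (hb : v.b = []) (ho : v.o = []) (ht : v.tmp = []) (hq : v.q2 = []) (hacc : v.acc = [])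
    (hout : v.out = []) :
    Runs (genT2 mul) (ts v) (ts { v with out := tab2L W p om n n })
      (n * (n * (2 * cM + 30 * W + 18) + cM + 30 * W + 32) + 6 * W + 12) := by
  have a1 := copyTo (W := W) v .one .H 1 (by decide) (by decide) (by decide) hq h1 hH
  simp only [ts_H] at a1
  have a2 := Runs.copy (s := ts { v with H := lbits W 1 }) (r := TReg.N) (q := TReg.q)
    (dst := TReg.N1) (by decide) (by decide) (by decide) hqN
  have a3 := Runs.forR (p := rowBody mul) (r := TReg.N1) (q := TReg.q1) (by decide) (a := false)
    (n := n) (fun i => ts { v with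
        N1 := zer n
        H := lbits W (powT p om i)
        acc := (tab2L W p om n i).reverse ++ v.acc })
        (n * (2 * cM + 28 * W + 18) + cM + 30 * W + 20) rfl hq1 (by
      intro i hi
      have c1 := rowBody_runs hmul { v with
        N1 := zer (n - 1 - i)
        q1 := zer (i + 1)
        H := lbits W (powT p om i)
        acc := (tab2L W p om n i).reverse ++ v.acc } n i om hp1 hom hN hqN hY hG hR rfl h1 hO hp ha
        hb ho ht hq
      simp only [ts_N1, ts_q1]
      refine c1.conv ?_ le_rfl
      simp only [tab2L_succ, List.reverse_append, List.append_assoc]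
      rfl)
  have a4 := Runs.clear (Γ := Bool) TReg.N1 (ts { v with
    N1 := zer n
    H := lbits W (powT p om n)
    acc := (tab2L W p om n n).reverse ++ v.acc })
  have a5 := Runs.clear (Γ := Bool) TReg.H (ts { v with
    N1 := []
    H := lbits W (powT p om n)
    acc := (tab2L W p om n n).reverse ++ v.acc })
  have a6 := Runs.flip (Γ := Bool) (r := TReg.acc) (q := TReg.out) (by decide) (ts { v with
    N1 := []
    H := []
    acc := (tab2L W p om n n).reverse ++ v.acc })
  simp only [ts_N1, ts_q1, ts_H, ts_acc, ts_out] at a2 a3 a4 a5 a6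
  have e2 : ts { v with H := lbits W 1, N1 := ts { v with H := lbits W 1 } .N ++ ts { v with H := lbits W 1 } .N1 } = ts { v with
        N1 := zer n
        H := lbits W (powT p om 0)
        acc := (tab2L W p om n 0).reverse ++ v.acc } := by
    simp [ts, hN, hN1, powT, tab2L, cat]
  have e3 : ts { v with
      N1 := List.replicate n false
      H := lbits W (powT p om n)
      acc := (tab2L W p om n n).reverse ++ v.acc
      q1 := [] } = ts { v with
      N1 := zer n
      H := lbits W (powT p om n)
      acc := (tab2L W p om n n).reverse ++ v.acc } := by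
    rw [← hq1]; rfl
  refine (a1.seq ((a2.conv e2 le_rfl).seq ((a3.conv ?_ le_rfl).seq (a4.seq (a5.seq a6))))).conv ?_ ?_
  · rw [← hq1]; rfl
  · simp [ts, hN1, hH, hacc, hout]
  · simp only [ts, hN, length_lbits, zer, List.length_replicate, hacc, List.append_nil,
      List.length_reverse, length_tab2L]
    nlinarith [Nat.zero_le (n * W), Nat.zero_le (n * cM), Nat.zero_le (n * n)]

end D

end Vale.Agent.P338
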