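import Vale.Agent.P338.H373.TabMul
import Vale.Agent.P338.H51.RD

/-!
# Stage 2, D5: the table programs over the global registers `RD`

`TABLES : Prog RD Bool` makes all five tables.
-/

namespace Vale.Agent.P338.D

open Function (update)

/-- put the constant `1` (`W` bits) on `one` -/
def mkOne : Prog TReg Bool :=
  .seq (.fill .W .q2 .one false) (.act fun _ => update (fun _ => .nop) .one (.rep true))

theorem lbits_one (W : ℕ) (hW : 0 < W) : lbits W 1 = true :: zer (W - 1) := by
  obtain ⟨w, rfl⟩ : ∃ w, W = w + 1 := ⟨W - 1, by omega⟩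
  have h : ∀ w, lbits w 0 = zer w := by
    intro w
    induction w with
    | zero => rfl
    | succ w ih => rw [lbits, show (0 : ℕ) / 2 = 0 from rfl, ih]; rfl
  rw [lbits, show (1 : ℕ) / 2 = 0 from rfl, h]
  rfl

theorem mkOne_runs {W : ℕ} (hW0 : 0 < W) (v : TV) (hW : v.W = zer W) (h1 : v.one = [])
    (hq : v.q2 = []) :
    Runs mkOne (ts v) (ts { v with one := lbits W 1 }) (5 * W + 3) := by
  have a1 := Runs.fill (s := ts v) (r := TReg.W) (q := TReg.q2) (dst := TReg.one) (by decide)
    (by decide) (by decide) (a := false) (b := false) (n := W) hW hq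
  simp only [ts_one] at a1
  have e1 : ts v .one = [] := h1
  rw [e1, List.append_nil] at a1
  refine (a1.seq (Runs.act_eq (s' := ts { v with one := lbits W 1 }) fun r => ?_)).weaken
    (by omega)
  by_cases hr : r = .one
  · subst hr
    rw [Function.update_self]
    show (Op.rep true).app (List.replicate W false) = lbits W 1
    obtain ⟨w, rfl⟩ : ∃ w, W = w + 1 := ⟨W - 1, by omega⟩
    rw [lbits_one _ hW0]
    rfl
  · rw [Function.update_of_ne hr]
    cases r <;> first | rfl | exact absurd rfl hr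

/-- a table program with the constant `1` made before and cleared after -/
def withOne (P : Prog TReg Bool) : Prog TReg Bool := .seq mkOne (.seq P (.clear .one))

theorem withOne_runs {W c : ℕ} (hW0 : 0 < W) {P : Prog TReg Bool} (v : TV) (L : List Bool)
    (hW : v.W = zer W) (h1 : v.one = []) (hq : v.q2 = [])
    (h : Runs P (ts { v with one := lbits W 1 }) (ts { v with one := lbits W 1, out := L }) c) :
    Runs (withOne P) (ts v) (ts { v with out := L }) (c + 7 * W + 4) := by
  have a1 := mkOne_runs hW0 v hW h1 hq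
  have a2 := Runs.clear (Γ := Bool) TReg.one (ts { v with one := lbits W 1, out := L })
  simp only [ts_one] at a2
  refine (a1.seq (h.seq a2)).conv ?_ ?_
  · rw [← h1]
  · simp only [ts, length_lbits]
    omega

/-- placement of the registers; `o` is the register of the table -/
def tmap (o : RD) : TReg → RD
  | .N => .rs
  | .p => .np
  | .om => .nom
  | .oi => .nomi
  | .de => .nT3
  | .W => .rW
  | .out => o
  | .q => .t 0
  | .N1 => .t 1
  | .q1 => .t 2
  | .q2 => .t 3
  | .Y => .t 4
  | .G => .t 5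
  | .R => .t 6
  | .H => .t 7
  | .a => .t 8
  | .b => .t 9
  | .o => .t 10
  | .acc => .t 11
  | .tmp => .t 12
  | .one => .t 13
  | .t i => .t ⟨14 + i.1, by omega⟩

/-- table registers -/
def IsTab : RD → Prop
  | .tT1 | .tH1 | .tT2 | .tH2 | .tT3 => True
  | _ => False

/-- left inverse of `tmap` -/
def tinv : RD → TReg
  | .rs => .N
  | .np => .p
  | .nom => .om
  | .nomi => .oi
  | .nT3 => .de
  | .rW => .W
  | .t i =>
    if h : 14 ≤ i.1 ∧ i.1 < 23 then .t ⟨i.1 - 14, by omega⟩ else
    match i.1 with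
    | 0 => .q
    | 1 => .N1
    | 2 => .q1
    | 3 => .q2
    | 4 => .Y
    | 5 => .G
    | 6 => .R
    | 7 => .H
    | 8 => .a
    | 9 => .b
    | 10 => .o
    | 11 => .acc
    | 12 => .tmp
    | _ => .one
  | _ => .out

theorem tinv_tmap {o : RD} (ho : IsTab o) (l : TReg) : tinv (tmap o l) = l := by
  cases l
  case out => cases o <;> first | rfl | exact ho.elim
  case t i =>
    have h : 14 ≤ 14 + i.1 ∧ 14 + i.1 < 23 := by omega
    simp only [tmap, tinv, dif_pos h, Nat.add_sub_cancel_left]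
  all_goals rfl

theorem tmap_injective {o : RD} (ho : IsTab o) : Function.Injective (tmap o) :=
  Function.LeftInverse.injective (g := tinv) (tinv_tmap ho)

/-- the table registers seen from the global registers -/
def tv (v : DV) : TV :=
  { N := v.rs, p := v.np, om := v.nom, oi := v.nomi, de := v.nT3, W := v.rW }

/-- programs of the tables -/
noncomputable def TT1 : Prog RD Bool := (withOne (genOnce mulT .one .one .om)).ren (tmap .tT1)
noncomputable def TH1 : Prog RD Bool := (withOne (genTwice mulT .one .oi .oi)).ren (tmap .tH1)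
noncomputable def TT2 : Prog RD Bool := (withOne (genT2 mulT)).ren (tmap .tT2)
noncomputable def TH2 : Prog RD Bool := (withOne (genTwice mulT .one .om .om)).ren (tmap .tH2)
noncomputable def TT3 : Prog RD Bool := (withOne (genOnce mulT .de .oi .oi)).ren (tmap .tT3)

/-- precondition of the table programs -/
structure TPre (v : DV) (W p om b : ℕ) : Prop where
  hrs : v.rs = zer (p - 1)
  hrW : v.rW = zer W
  hnp : v.np = lbits W p
  hnom : v.nom = lbits W om
  hnomi : v.nomi = lbits W (pwm p om (-1))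
  hnT3 : v.nT3 = lbits W (T3 p om b 0)

section

variable {W p om b : ℕ} [hp : Fact p.Prime] {g : (ZMod p)ˣ}

theorem T3_zero (hg : (g : ZMod p) = (om : ZMod p)) :
    T3 p om b 0 = (p - 1) * (p / 2 ^ (b + 1)) % p := by
  have h := pwm_zero hg
  simp [T3, h]

theorem tabPre (hg : (g : ZMod p) = (om : ZMod p)) {v : DV} (h : TPre v W p om b) :
    TabPre { tv v with one := lbits W 1 } W p om b (p - 1) where
  hN := h.hrs
  hq := rfl
  hN1 := rfl
  hq1 := rfl
  hq2 := rfl
  hY := rfl
  hG := rfl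
  hR := rfl
  hH := rfl
  ha := rfl
  hb := rfl
  hp := h.hnp
  ho := rfl
  hacc := rfl
  hout := rfl
  htmp := rfl
  hone := rfl
  hom := h.hnom
  hoi := h.hnomi
  hde := by rw [← T3_zero hg]; exact h.hnT3

theorem TT1_runs (hg : (g : ZMod p) = (om : ZMod p)) (hom : om < p) (hW : 0 < W)
    (hP : 2 * p ≤ 2 ^ W) (v : DV) (h : TPre v W p om b) (he : v.tT1 = []) :
    Runs TT1 v.st { v with tT1 := cat (p - 1) fun i => lbits W (T1 p om i) }.st
      ((p - 1) * (2 * (20 * W ^ 2 + 56 * W + 6) + 30 * W + 18) + 18 * W + 20 + 7 * W + 4) := by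
  have h1 := GT1_runs hg hom (mulT_ok hP) _ (tabPre hg h)
  have h2 := withOne_runs hW (tv v) _ h.hrW rfl rfl h1
  refine DV.run (tmap_injective (o := .tT1) trivial) h2 ?_ ?_ ?_
  · intro l; cases l <;> first | rfl | exact he
  · intro l; cases l <;> rfl
  · intro r hr
    cases r <;> first | rfl | exact absurd rfl (hr .out)

theorem TH1_runs (hg : (g : ZMod p) = (om : ZMod p)) (hW : 0 < W)
    (hP : 2 * p ≤ 2 ^ W) (v : DV) (h : TPre v W p om b) (he : v.tH1 = []) :
    Runs TH1 v.st { v with tH1 := cat (2 * (p - 1)) fun m => lbits W (H1 p om m) }.st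
      (2 * (p - 1) * (2 * (20 * W ^ 2 + 56 * W + 6) + 30 * W + 18) + 18 * W + 20 + 7 * W + 4) := by
  have h1 := GH1_runs hg (mulT_ok hP) _ (tabPre hg h)
  have h2 := withOne_runs hW (tv v) _ h.hrW rfl rfl h1
  refine DV.run (tmap_injective (o := .tH1) trivial) h2 ?_ ?_ ?_
  · intro l; cases l <;> first | rfl | exact he
  · intro l; cases l <;> rfl
  · intro r hr
    cases r <;> first | rfl | exact absurd rfl (hr .out)

theorem TT2_runs (hg : (g : ZMod p) = (om : ZMod p)) (hom : om < p) (hW : 0 < W)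
    (hP : 2 * p ≤ 2 ^ W) (v : DV) (h : TPre v W p om b) (he : v.tT2 = []) :
    Runs TT2 v.st { v with
        tT2 := cat (p - 1) fun k => cat (p - 1) fun d => lbits W (T2 p om k d) }.st
      ((p - 1) * ((p - 1) * (2 * (20 * W ^ 2 + 56 * W + 6) + 30 * W + 18) +
        (20 * W ^ 2 + 56 * W + 6) + 30 * W + 32) + 6 * W + 12 + 7 * W + 4) := by
  have h1 := GT2_runs hg hom (mulT_ok hP) _ (tabPre hg h)
  have h2 := withOne_runs hW (tv v) _ h.hrW rfl rfl h1
  refine DV.run (tmap_injective (o := .tT2) trivial) h2 ?_ ?_ ?_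
  · intro l; cases l <;> first | rfl | exact he
  · intro l; cases l <;> rfl
  · intro r hr
    cases r <;> first | rfl | exact absurd rfl (hr .out)

theorem TH2_runs (hg : (g : ZMod p) = (om : ZMod p)) (hom : om < p) (hW : 0 < W)
    (hP : 2 * p ≤ 2 ^ W) (v : DV) (h : TPre v W p om b) (he : v.tH2 = []) :
    Runs TH2 v.st { v with tH2 := cat (2 * (p - 1)) fun m => lbits W (H2 p om m) }.st
      (2 * (p - 1) * (2 * (20 * W ^ 2 + 56 * W + 6) + 30 * W + 18) + 18 * W + 20 + 7 * W + 4) := by
  have h1 := GH2_runs hg hom (mulT_ok hP) _ (tabPre hg h)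
  have h2 := withOne_runs hW (tv v) _ h.hrW rfl rfl h1
  refine DV.run (tmap_injective (o := .tH2) trivial) h2 ?_ ?_ ?_
  · intro l; cases l <;> first | rfl | exact he
  · intro l; cases l <;> rfl
  · intro r hr
    cases r <;> first | rfl | exact absurd rfl (hr .out)

theorem TT3_runs (hg : (g : ZMod p) = (om : ZMod p)) (hW : 0 < W)
    (hP : 2 * p ≤ 2 ^ W) (v : DV) (h : TPre v W p om b) (he : v.tT3 = []) :
    Runs TT3 v.st { v with tT3 := cat (p - 1) fun i => lbits W (T3 p om b i) }.st
      ((p - 1) * (2 * (20 * W ^ 2 + 56 * W + 6) + 30 * W + 18) + 18 * W + 20 + 7 * W + 4) := by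
  have h1 := GT3_runs hg (mulT_ok hP) _ (tabPre hg h)
  have h2 := withOne_runs hW (tv v) _ h.hrW rfl rfl h1
  refine DV.run (tmap_injective (o := .tT3) trivial) h2 ?_ ?_ ?_
  · intro l; cases l <;> first | rfl | exact he
  · intro l; cases l <;> rfl
  · intro r hr
    cases r <;> first | rfl | exact absurd rfl (hr .out)

/-- all the tables -/
noncomputable def TABLES : Prog RD Bool := .seq TT1 (.seq TH1 (.seq TT2 (.seq TH2 TT3)))

theorem TABLES_runs (hg : (g : ZMod p) = (om : ZMod p)) (hom : om < p) (hW : 0 < W)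
    (hP : 2 * p ≤ 2 ^ W) (v : DV) (h : TPre v W p om b) (e1 : v.tT1 = []) (e2 : v.tH1 = [])
    (e3 : v.tT2 = []) (e4 : v.tH2 = []) (e5 : v.tT3 = []) :
    Runs TABLES v.st { v with
        tT1 := cat (p - 1) fun i => lbits W (T1 p om i)
        tH1 := cat (2 * (p - 1)) fun m => lbits W (H1 p om m)
        tT2 := cat (p - 1) fun k => cat (p - 1) fun d => lbits W (T2 p om k d)
        tH2 := cat (2 * (p - 1)) fun m => lbits W (H2 p om m)
        tT3 := cat (p - 1) fun i => lbits W (T3 p om b i) }.st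
      (2000 * (p * p * (W * W))) := by
  have a1 := TT1_runs hg hom hW hP v h e1
  have a2 := TH1_runs hg hW hP _ (⟨h.hrs, h.hrW, h.hnp, h.hnom, h.hnomi, h.hnT3⟩ :
    TPre { v with tT1 := cat (p - 1) fun i => lbits W (T1 p om i) } W p om b) e2
  have a3 := TT2_runs hg hom hW hP _ (⟨h.hrs, h.hrW, h.hnp, h.hnom, h.hnomi, h.hnT3⟩ :
    TPre { v with
      tT1 := cat (p - 1) fun i => lbits W (T1 p om i)
      tH1 := cat (2 * (p - 1)) fun m => lbits W (H1 p om m) } W p om b) e3
  have a4 := TH2_runs hg hom hW hP _ (⟨h.hrs, h.hrW, h.hnp, h.hnom, h.hnomi, h.hnT3⟩ :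
    TPre { v with
      tT1 := cat (p - 1) fun i => lbits W (T1 p om i)
      tH1 := cat (2 * (p - 1)) fun m => lbits W (H1 p om m)
      tT2 := cat (p - 1) fun k => cat (p - 1) fun d => lbits W (T2 p om k d) } W p om b) e4
  have a5 := TT3_runs hg hW hP _ (⟨h.hrs, h.hrW, h.hnp, h.hnom, h.hnomi, h.hnT3⟩ :
    TPre { v with
      tT1 := cat (p - 1) fun i => lbits W (T1 p om i)
      tH1 := cat (2 * (p - 1)) fun m => lbits W (H1 p om m)
      tT2 := cat (p - 1) fun k => cat (p - 1) fun d => lbits W (T2 p om k d)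
      tH2 := cat (2 * (p - 1)) fun m => lbits W (H2 p om m) } W p om b) e5
  refine (a1.seq (a2.seq (a3.seq (a4.seq a5)))).weaken ?_
  have hp1 := hp.out.two_le
  obtain ⟨s, rfl⟩ : ∃ s, p = s + 1 := ⟨p - 1, by omega⟩
  have hs : 1 ≤ s := by omega
  simp only [Nat.add_sub_cancel]
  have k0 : 1 ≤ W * W := Nat.mul_pos hW hW
  have k1 : W ≤ W * W := Nat.le_mul_of_pos_right _ hW
  have k2 : s ≤ s * s := Nat.le_mul_of_pos_right _ hs
  have k3 : 1 ≤ s * s := Nat.mul_pos hs hs
  have m1 : s * (W * W) ≤ s * s * (W * W) := Nat.mul_le_mul_right _ k2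
  have m2 : s * W ≤ s * (W * W) := Nat.mul_le_mul_left _ k1
  have m3 : s * 1 ≤ s * (W * W) := Nat.mul_le_mul_left _ k0
  have m4 : 1 * (W * W) ≤ s * s * (W * W) := Nat.mul_le_mul_right _ k3
  have m5 : s * s * W ≤ s * s * (W * W) := Nat.mul_le_mul_left _ k1
  have m6 : s * s * 1 ≤ s * s * (W * W) := Nat.mul_le_mul_left _ k0
  have m7 : s * s * (W * W) ≤ (s + 1) * (s + 1) * (W * W) :=
    Nat.mul_le_mul_right _ (Nat.mul_le_mul (Nat.le_succ s) (Nat.le_succ s))
  generalize hA : (s + 1) * (s + 1) * (W * W) = A at m7 ⊢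
  ring_nf at m1 m2 m3 m4 m5 m6 m7 k1 ⊢
  linarith

end

end Vale.Agent.P338.D
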